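import Vale.Agent.P261Z.B7.Defs

/-!
# P261Z, block B6: the flat step
-/

open Polynomial TensorProduct

noncomputable section

namespace P261.B7.FfA

universe u

variable {p : ℕ} [hp : Fact p.Prime]

/-- evaluation of polynomials over the prime field -/
def ev (p : ℕ) {O : Type*} [CommRing O] [Ch p O] (s : O) : (ZMod p)[X] →+* O :=
  eval₂RingHom (ZMod.castHom (ringChar.dvd (Ch.char (p := p) (K := O))) O) s

omit hp in
theorem ev_X {O : Type*} [CommRing O] [Ch p O] (s : O) : ev p s X = s := by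
  simp [ev]

/-- the elements which are killed by a nonzero polynomial in `s` -/
def tors (p : ℕ) [Fact p.Prime] {O : Type*} [CommRing O] [Ch p O] (s : O) : Ideal O where
  carrier := {y | ∃ f : (ZMod p)[X], f ≠ 0 ∧ ev p s f * y = 0}
  zero_mem' := ⟨1, one_ne_zero, mul_zero _⟩
  add_mem' := by
    rintro a b ⟨f, hf, h1⟩ ⟨g, hg, h2⟩
    exact ⟨f * g, mul_ne_zero hf hg, by
      rw [map_mul]; linear_combination ev p s g * h1 + ev p s f * h2⟩
  smul_mem' := by
    rintro c a ⟨f, hf, h1⟩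
    exact ⟨f, hf, by rw [smul_eq_mul]; linear_combination c * h1⟩

theorem not_unit {O : Type*} [CommRing O] [Ch p O] {s : O} (hs : s ∈ nonZeroDivisors O)
    (hu : ¬ IsUnit s) : ¬ IsUnit (Ideal.Quotient.mk (tors p s) s) := by
  intro h
  obtain ⟨y, hy⟩ := h.exists_right_inv
  obtain ⟨y, rfl⟩ := Ideal.Quotient.mk_surjective y
  rw [← map_mul, ← map_one (Ideal.Quotient.mk (tors p s)), Ideal.Quotient.eq] at hy
  obtain ⟨f, hf, h1⟩ := hy
  obtain ⟨g, hg, hX⟩ := exists_eq_pow_rootMultiplicity_mul_and_not_dvd f hf 0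
  rw [C_0, sub_zero] at hg hX
  rw [hg, map_mul, map_pow, ev_X, mul_assoc] at h1
  have h2 := (mul_left_mem_nonZeroDivisors_eq_zero_iff (pow_mem hs _)).1 h1
  obtain ⟨a, b, hab⟩ := (irreducible_X.coprime_iff_not_dvd.2 hX)
  have h3 := congrArg (ev p s) hab
  rw [map_add, map_mul, map_mul, ev_X, map_one] at h3
  exact hu (IsUnit.of_mul_eq_one (ev p s a + ev p s b * ev p s g * y)
    (by linear_combination h3 + ev p s b * h2))

theorem cover {O : Type u} [CommRing O] [Ch p O] {s : O} (hs : s ∈ nonZeroDivisors O)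
    (hu : ¬ IsUnit s) {C : Type u} [CommRing C] [Ch p C] (t : C) :
    ∃ (D : Type u) (_ : CommRing D) (_ : Algebra C D), Module.FaithfullyFlat C D ∧
      ∃ (e y : D) (φ : O →ₙ+* D), algebraMap C D t * y = e ∧ φ 1 = 1 - e ∧
        φ s = algebraMap C D t * (1 - e) := by
  let Λ := (ZMod p)[X]
  let O' := O ⧸ tors p s
  let π : O →+* O' := Ideal.Quotient.mk _
  let _ : Algebra Λ O' := (π.comp (ev p s)).toAlgebra
  let _ : Algebra Λ C := (ev p t).toAlgebra
  have hO : ∀ f : Λ, algebraMap Λ O' f = π (ev p s f) := fun _ => rfl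
  let U := Localization.Away (X : Λ)
  have h1 : Module.IsTorsionFree Λ O' := by
    refine ⟨fun f hf => ?_⟩
    rw [isSMulRegular_iff_right_eq_zero_of_smul]
    intro y hy
    obtain ⟨y, rfl⟩ := Ideal.Quotient.mk_surjective y
    rw [Algebra.smul_def, hO] at hy
    obtain ⟨g, hg, h2⟩ : ev p s f * y ∈ tors p s := Ideal.Quotient.eq_zero_iff_mem.1 hy
    exact Ideal.Quotient.eq_zero_iff_mem.2 ⟨g * f, mul_ne_zero hg hf.ne_zero, by
      rw [map_mul, mul_assoc, h2]⟩
  have h2 : Module.Flat Λ U := IsLocalization.flat U (Submonoid.powers X)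
  have h3 : Module.Flat Λ (U × O') := by
    have : Module.IsTorsionFree Λ (U × O') := inferInstance
    infer_instance
  have h4 : Module.FaithfullyFlat Λ (U × O') := by
    refine ⟨fun m hm h => ?_⟩
    have h5 : m.map (algebraMap Λ (U × O')) = ⊤ := by
      rw [Ideal.smul_top_eq_map] at h
      exact (Submodule.restrictScalars_eq_top_iff _ _ _).1 h
    by_cases hX : (X : Λ) ∈ m
    · have h6 : m = Ideal.span {X} :=
        ((PrincipalIdealRing.isMaximal_of_irreducible irreducible_X).eq_of_le hm.ne_top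
          ((Ideal.span_singleton_le_iff_mem _).2 hX)).symm
      rw [h6, Ideal.map_span, Set.image_singleton, Ideal.span_singleton_eq_top] at h5
      have h7 := h5.map (RingHom.snd U O')
      refine not_unit hs hu ?_
      simpa [hO, ev_X] using h7
    · have h6 : m.map (algebraMap Λ U) = ⊤ := by
        have := congrArg (Ideal.map (RingHom.fst U O')) h5
        rwa [Ideal.map_map, Ideal.map_top] at this
      obtain ⟨k, hk⟩ : ∃ k : ℕ, X ^ k ∈ m := by
        have h7 := (Ideal.eq_top_iff_one _).1 h6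
        rw [IsLocalization.mem_map_algebraMap_iff (Submonoid.powers X)] at h7
        obtain ⟨⟨a, ⟨_, k, rfl⟩⟩, h7⟩ := h7
        rw [one_mul] at h7
        have h8 := IsLocalization.injective U (powers_le_nonZeroDivisors_of_noZeroDivisors
          (X_ne_zero (R := ZMod p))) h7
        exact ⟨k, (show X ^ k = (a : Λ) from h8) ▸ a.2⟩
      exact hX (hm.isPrime.mem_of_pow_mem k hk)
  have h5 : ∀ z : U × O', algebraMap C (C ⊗[Λ] (U × O')) t * 1 ⊗ₜ z =
      1 ⊗ₜ (algebraMap Λ (U × O') X * z) := by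
    intro z
    have : t = (X : Λ) • (1 : C) := by
      rw [Algebra.smul_def, mul_one]; exact (ev_X t).symm
    rw [Algebra.TensorProduct.algebraMap_apply, Algebra.TensorProduct.tmul_mul_tmul,
      Algebra.algebraMap_self_apply, mul_one, one_mul, this, smul_tmul, Algebra.smul_def]
  have h6 : (1 : C ⊗[Λ] (U × O')) - 1 ⊗ₜ (1, 0) = 1 ⊗ₜ (0, 1) := by
    rw [Algebra.TensorProduct.one_def, ← tmul_sub]
    congr 1
    ext <;> simp
  refine ⟨C ⊗[Λ] (U × O'), inferInstance, inferInstance, inferInstance, 1 ⊗ₜ (1, 0),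
    1 ⊗ₜ (IsLocalization.Away.invSelf (X : Λ), 0),
    { toFun := fun y => 1 ⊗ₜ (0, π y)
      map_mul' := fun a b => by simp
      map_zero' := by simp [← Prod.zero_eq_mk]
      map_add' := fun a b => by simp [← tmul_add] }, ?_, ?_, ?_⟩
  · rw [h5]
    congr 1
    ext <;> simp
  · rw [h6]
    show 1 ⊗ₜ (0, π 1) = _
    rw [map_one]
  · rw [h6, h5]
    show 1 ⊗ₜ (0, π s) = _
    congr 1
    ext <;> simp [hO, ev_X]

end P261.B7.FfA

namespace P261.B7

variable {p : ℕ} [hp : Fact p.Prime]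

theorem away_of_exh {K : Type} [CommRing K] (C : Subring K) (s : Kˣ) (hs : (s : K) ∈ C)
    (h : ∀ y : K, ∃ N : ℕ, (s : K) ^ N * y ∈ C) : IsLocalization.Away (⟨s, hs⟩ : C) K := by
  refine IsLocalization.Away.mk _ s.isUnit (fun y => ?_) fun a b hab => ⟨0, ?_⟩
  · obtain ⟨N, hN⟩ := h y
    exact ⟨N, ⟨_, hN⟩, mul_comm _ _⟩
  · rw [Subtype.ext hab]

theorem ff1 : FF1 p := by
  intro T₀ s₀ h0 h1 h2 T s hs
  have h3 : (⟨s₀, h0⟩ : T₀.C) ∈ nonZeroDivisors T₀.C :=
    mem_nonZeroDivisors_iff_right.2 fun y hy => Subtype.ext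
      ((s₀.isUnit.mul_left_eq_zero).1 (congrArg Subtype.val hy))
  have h4 : ¬ IsUnit (⟨s₀, h0⟩ : T₀.C) := fun h => by
    obtain ⟨y, hy⟩ := h.exists_right_inv
    rw [Units.inv_eq_of_mul_eq_one_right (congrArg Subtype.val hy)] at h1
    exact h1 y.2
  obtain ⟨D, _, _, _, e, y, φ, h5, h6, h7⟩ := FfA.cover (p := p) h3 h4 (⟨s, hs⟩ : T.C)
  have h8 : e * (1 - e) = 0 := by
    have := map_mul φ 1 1
    rw [mul_one, h6] at this
    linear_combination this
  refine .ff D fun T' f ψ hψ hf => .bl (ψ e) (ψ (1 - e)) (hψ _) (hψ _) fun T'' g ht => .here ?_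
  obtain ⟨t, -, ht⟩ := ht
  let χ : D →+* T''.K := g.f.comp ψ
  have hχ : ∀ d, χ d ∈ T''.C := fun d => g.mem _ (hψ d)
  have h9 : χ (algebraMap T.C D ⟨s, hs⟩) = g.f (f.f s) := congrArg g.f (hf _)
  have h10 : χ e * (1 - χ e) = 0 := by simpa using congrArg χ h8
  show g.f (f.f _) ∈ _ ∨ ∃ φ : T₀.K →+* T''.K, _ ∧ _ = g.f (f.f _)
  have h11 : χ e = 0 ∨ χ e = 1 := by
    change χ e = χ (1 - e) * t ∨ χ (1 - e) = χ e * t at ht
    rw [map_sub, map_one] at ht
    rcases ht with ht | ht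
    · exact Or.inl (by linear_combination (χ e) * ht + (1 + t) * h10)
    · exact Or.inr (by linear_combination -(1 - χ e) * ht - (1 + t) * h10)
  rcases h11 with h11 | h11
  · let φ' : T₀.C →+* T''.K :=
      { toFun := fun a => χ (φ a)
        map_one' := by rw [h6, map_sub, map_one, h11, sub_zero]
        map_mul' := fun a b => by rw [map_mul, map_mul]
        map_zero' := by rw [map_zero, map_zero]
        map_add' := fun a b => by rw [map_add, map_add] }
    have h12 : φ' ⟨s₀, h0⟩ = g.f (f.f s) := by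
      show χ (φ _) = _
      rw [h7, map_mul, h9, map_sub, map_one, h11, sub_zero, mul_one]
    have := away_of_exh T₀.C s₀ h0 h2
    have h13 : IsUnit (φ' ⟨s₀, h0⟩) := h12 ▸ (s.isUnit.map f.f).map g.f
    have h14 := IsLocalization.Away.lift_eq (S := T₀.K) (⟨s₀, h0⟩ : T₀.C) h13
    exact Or.inr ⟨IsLocalization.Away.lift (⟨s₀, h0⟩ : T₀.C) h13,
      fun a ha => (h14 ⟨a, ha⟩).symm ▸ hχ _, (h14 ⟨s₀, h0⟩).trans h12⟩
  · have h12 : g.f (f.f s) * χ y = 1 := by rw [← h9, ← map_mul, h5, h11]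
    have h13 : g.f (f.f (↑s⁻¹ : T.K)) = χ y := by
      rw [← mul_one (g.f _), ← h12, ← mul_assoc, ← map_mul, ← map_mul, s.inv_mul, map_one, map_one,
        one_mul]
    exact Or.inl (h13 ▸ hχ y)

end P261.B7
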