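import Vale.Agent.P261Z.B7.Slice

/-!
# P261Z, block B: moves on block matrices
-/

open Matrix

noncomputable section

namespace P261.B7

variable {p : ℕ} [hp : Fact p.Prime]

section ring

variable {K : Type} [CommRing K] {C : Subring K} {ι κ μ : Type} [Fintype ι] [Fintype κ]
  [Fintype μ] [DecidableEq ι] [DecidableEq κ] [DecidableEq μ]

theorem Dieu.block {A : Matrix κ κ (WittVector p K)} (h : Dieu C A)
    {ξ : Matrix ι κ (WittVector p K)} (hξ : Ent (WI p C) ξ) : Dieu C (fromBlocks 1 ξ 0 A) := by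
  obtain ⟨a1, B, a2, a3, a4⟩ := h
  refine ⟨.blocks .one hξ .zero a1, fromBlocks ((p : WittVector p K) • 1) (-(ξ * B)) 0 B,
    .blocks (Ent.one.smul (natCast_mem _ _)) (hξ.mul a2).neg .zero a2, ?_, ?_⟩
  · rw [fromBlocks_multiply, a3, ← fromBlocks_one, fromBlocks_smul]
    simp
  · rw [fromBlocks_multiply, a4, ← fromBlocks_one, fromBlocks_smul]
    simp [Matrix.mul_assoc, a4]

theorem Dieu.pert {A ν : Matrix κ κ (WittVector p K)} (h : Dieu C A) (h1 : Ent (WI p C) ν)
    (h2 : ν * ν = 0) : Dieu C (A * (1 - ν)) := by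
  obtain ⟨a1, B, a2, a3, a4⟩ := h
  have e : (1 - ν) * (1 + ν) = 1 := by noncomm_ring [h2]
  have e' : (1 + ν) * (1 - ν) = 1 := by noncomm_ring [h2]
  refine ⟨a1.mul (Ent.one.sub h1), (1 + ν) * B, (Ent.one.add h1).mul a2, ?_, ?_⟩
  · rw [Matrix.mul_assoc, ← Matrix.mul_assoc (1 - ν), e, Matrix.one_mul, a3]
  · rw [Matrix.mul_assoc, ← Matrix.mul_assoc B, a4, smul_mul_assoc, Matrix.one_mul, mul_smul_comm,
      e']

theorem A1_eq (h : ℕ) (u : K) : A1 p h u = Hm p K (h + 1) *
    (1 - tm p u • Matrix.single (Fin.last h).castSucc (Fin.last (h + 1)) 1) := by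
  rw [A1, Matrix.mul_sub, Matrix.mul_one, smul_single, smul_eq_mul, mul_one]
  congr 1
  ext i j : 1
  by_cases hj : j = Fin.last (h + 1)
  · subst hj
    rw [mul_single_apply_same, single_apply]
    simp [Hm, eq_comm]
  · rw [mul_single_apply_of_ne _ _ _ _ _ hj, single_apply_of_ne]
    exact fun h => hj h.2.symm

omit [Fintype κ] in
theorem single_ent {S : Subring (WittVector p K)} (i j : κ) :
    Ent S (Matrix.single i j (1 : WittVector p K)) := fun a b => by
  rw [single_apply]
  split_ifs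
  exacts [one_mem _, zero_mem _]

theorem nu_sq (h : ℕ) (a : WittVector p K) :
    a • Matrix.single (Fin.last h).castSucc (Fin.last (h + 1)) (1 : WittVector p K) *
      a • Matrix.single (Fin.last h).castSucc (Fin.last (h + 1)) 1 = 0 := by
  rw [smul_mul_smul_comm, single_mul_single_of_ne _ _ _ _ (Fin.castSucc_lt_last _).ne', smul_zero]

theorem A1_dieu (h : ℕ) {u : K} (hu : u ∈ C) : Dieu C (A1 p h u) :=
  A1_eq (p := p) h u ▸ Hm_dieu.pert ((single_ent _ _).smul (tm_mem hu)) (nu_sq h _)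

variable [Pf p K]

theorem si_pow_tm (k : ℕ) (a : K) : (si p K ^ k) (tm p a) = tm p ((rt p K ^ k) a) := by
  induction k with
  | zero => rfl
  | succ k ih => rw [pow_succ', pow_succ', RingHom.mul_def, RingHom.mul_def, RingHom.comp_apply,
      RingHom.comp_apply, ih, si_tm]

/-- unipotent moves -/
theorem Iso.unip (A : Matrix κ κ (WittVector p K)) {ξ ξ' a : Matrix ι κ (WittVector p K)}
    (ha : Ent (Bd p C) a) (e : ξ + a * A - a.map (si p K) = ξ') :
    Iso C (fromBlocks 1 ξ 0 A) (fromBlocks 1 ξ' 0 A) := by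
  refine ⟨fromBlocks 1 a 0 1, fromBlocks 1 (-a) 0 1, .blocks .one ha .zero .one,
    .blocks .one ha.neg .zero .one, ?_, ?_, ?_⟩
  · simp [fromBlocks_multiply]
  · simp [fromBlocks_multiply]
  · rw [blocks_map (si p K), map_one', ← e]
    simp [fromBlocks_multiply]

/-- change of the basis of the quotient -/
theorem Iso.block {A : Matrix κ κ (WittVector p K)} {A' : Matrix μ μ (WittVector p K)}
    {g : Matrix μ κ (WittVector p K)} {g' : Matrix κ μ (WittVector p K)} (a1 : Ent (Bd p C) g)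
    (a2 : Ent (Bd p C) g') (a3 : g * g' = 1) (a4 : g' * g = 1) (a5 : A' * g.map (si p K) = g * A)
    (ξ : Matrix ι κ (WittVector p K)) :
    Iso C (fromBlocks 1 ξ 0 A) (fromBlocks 1 (ξ * g'.map (si p K)) 0 A') := by
  have e : g'.map (si p K) * g.map (si p K) = 1 := by rw [← Matrix.map_mul, a4, map_one']
  refine ⟨fromBlocks 1 0 0 g, fromBlocks 1 0 0 g', .blocks .one .zero .zero a1,
    .blocks .one .zero .zero a2, ?_, ?_, ?_⟩
  · simp [fromBlocks_multiply, a3]
  · simp [fromBlocks_multiply, a4]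
  · rw [fromBlocks_map, map_one']
    simp [fromBlocks_multiply, a5, Matrix.mul_assoc, e]

/-- a perturbation with square zero which preserves the lattice -/
theorem Lat.pert {A A' g g' ν : Matrix κ κ (WittVector p K)}
    (h : Dieu C A') (a1 : Ent (Bd p C) g) (a2 : Ent (Bd p C) g') (a3 : g * g' = 1)
    (a4 : g' * g = 1) (a5 : A' * g.map (si p K) = g * A) (h1 : ν * ν = 0)
    (h2 : Ent (WI p C) (g.map (si p K) * ν * g'.map (si p K))) : Lat C (A * (1 - ν)) := by
  have e : g'.map (si p K) * g.map (si p K) = 1 := by rw [← Matrix.map_mul, a4, map_one']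
  refine ⟨_, h.pert h2 ?_, g, g', a1, a2, a3, a4, ?_⟩
  · simp only [Matrix.mul_assoc]
    rw [← Matrix.mul_assoc (g'.map _), e, Matrix.one_mul, ← Matrix.mul_assoc ν, h1]
    simp
  · rw [← Matrix.mul_assoc, ← a5]
    simp only [Matrix.mul_assoc, Matrix.sub_mul, Matrix.mul_sub, e, Matrix.mul_one]

end ring

variable {ι κ : Type} [Fintype ι] [DecidableEq ι] [Fintype κ] [DecidableEq κ] {T : Tri p} {h : ℕ}

/-- every extension class is given by a last column -/
theorem nrm {ξ : Matrix ι (Fin (h + 1)) (WittVector p T.K)} (hξ : Ent (Bd p T.C) ξ) :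
    ∃ x : ι → WittVector p T.K, (∀ i, x i ∈ Bd p T.C) ∧
      Iso T.C (fromBlocks 1 ξ 0 (Hm p T.K h)) (Nx h x) := by
  let b : ι → ℕ → WittVector p T.K := fun i n =>
    n.rec 0 fun n y => si p T.K y - if hn : n < h + 1 then ξ i ⟨n, hn⟩ else 0
  have hb : ∀ i n, b i n ∈ Bd p T.C := fun i n => by
    induction n with
    | zero => exact zero_mem _
    | succ n ih =>
      refine sub_mem (T.si_mem' ih) ?_
      split_ifs
      exacts [hξ _ _, zero_mem _]
  let a : Matrix ι (Fin (h + 1)) (WittVector p T.K) := Matrix.of fun i j => b i j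
  have ha : Ent (Bd p T.C) a := fun i j => hb i j
  refine ⟨fun i => (ξ + a * Hm p T.K h - a.map (si p T.K)) i (Fin.last h),
    fun i => ((hξ.add (ha.mul (Hm_ent.mono WI.le_Bd))).sub (ha.map fun _ => T.si_mem')) _ _,
    .unip _ ha ?_⟩
  ext i j : 1
  rw [lcol, of_apply]
  split_ifs with hj
  · rw [hj]
  · have e : a i (j + 1) = si p T.K (a i j) - ξ i j := by
      show b i (j + 1 : Fin (h + 1)) = _
      rw [Fin.val_add_one_of_lt (Fin.lt_last_iff_ne_last.2 hj)]
      show si p T.K (b i j) - dite _ _ _ = _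
      rw [dif_pos j.2]
      rfl
    rw [Matrix.sub_apply, Matrix.add_apply, mul_Hm, if_neg hj, e, map_apply]
    ring

theorem slide {x x' a : ι → WittVector p T.K} (ha : ∀ i, a i ∈ Bd p T.C)
    (e : ∀ i, x i = x' i + (si p T.K ^ (h + 1)) (a i) - p * a i) : Iso T.C (Nx h x) (Nx h x') := by
  refine .unip (a := Matrix.of fun i j => (si p T.K ^ (j : ℕ)) (a i)) _
    (fun i j => T.si_pow_mem' _ (ha i)) ?_
  ext i j : 1
  have e1 : si p T.K ((si p T.K ^ (j : ℕ)) (a i)) = (si p T.K ^ (j + 1 : ℕ)) (a i) := by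
    rw [pow_succ']; rfl
  simp only [Matrix.sub_apply, Matrix.add_apply, mul_Hm, lcol, of_apply, map_apply, e1]
  split_ifs with hj
  · subst hj
    rw [e, Fin.last_add_one]
    simp
    ring
  · rw [Fin.val_add_one_of_lt (Fin.lt_last_iff_ne_last.2 hj)]
    simp

/-- the classes can be moved to Teichmueller representatives -/
theorem sl (h : ℕ) (T : Tri p) (x : ι → WittVector p T.K)
    (hx : ∀ i, x i ∈ Bd p T.C) : Loc T fun T' f => ∃ y : ι → T'.K,
      Iso T'.C (Nx h fun i => wm p f.f (x i)) (Nx h fun i => tm p (y i)) := by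
  refine (Loc.all (fun i T' f => ∃ y : T'.K, ∃ a ∈ Bd p T'.C, wm p f.f (x i) =
    tm p y + (si p T'.K ^ (h + 1)) a - p * a) ?_ fun i T' f => ?_).mono fun T' f H => ?_
  · rintro i T' f T'' g ⟨y, a, ha, e⟩
    refine ⟨g.f y, wm p g.f a, Bd.map g.mem ha, ?_⟩
    show wm p g.f (wm p f.f (x i)) = _
    rw [e, map_sub, map_add, map_mul, map_natCast, wm_tm, wm_si_pow]
  · exact slb h T' _ (Bd.map f.mem (hx i))
  · choose y a ha e using H
    exact ⟨y, slide ha e⟩

/-- lattices exist locally -/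
abbrev LL (T : Tri p) (A : Matrix ι ι (WittVector p T.K)) : Prop :=
  Loc T fun T' f => Lat T'.C (A.map (wm p f.f))

theorem LL.of_lat {A : Matrix ι ι (WittVector p T.K)} (h : Lat T.C A) : LL T A :=
  .here (h.map fun _ h => h)

theorem LL.of_iso {A : Matrix ι ι (WittVector p T.K)} {A' : Matrix κ κ (WittVector p T.K)}
    (e : ι ≃ κ) (h : Iso T.C A A') (h' : LL T A') : LL T A :=
  h'.mono fun _ f h'' => h''.of_iso e (h.map f.mem)

theorem LL.bind {A : Matrix ι ι (WittVector p T.K)} {P : (T' : Tri p) → T.Hom T' → Prop}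
    (h : Loc T P) (h' : ∀ T' f, P T' f → LL T' (A.map (wm p f.f))) : LL T A := h.bind h'

/-- removing powers of `p` from the class -/
theorem modn (hM : MOD p) (n : ℕ) : ∀ (T : Tri p) (A : Matrix κ κ (WittVector p T.K))
    (ξ : Matrix ι κ (WittVector p T.K)) (N : ι → ℕ), ∑ i, N i = n →
    Lat T.C (fromBlocks 1 (Matrix.of fun i j => (p : WittVector p T.K) ^ N i * ξ i j) 0 A) →
    LL T (fromBlocks 1 ξ 0 A) := by
  induction n with
  | zero =>
    intro T A ξ N hN hL
    simp only [fun i => Finset.sum_eq_zero_iff.1 hN i (Finset.mem_univ i), pow_zero, one_mul] at hL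
    exact .of_lat hL
  | succ n ih =>
    intro T A ξ N hN hL
    obtain ⟨j, -, hj⟩ := Finset.exists_ne_zero_of_sum_ne_zero (hN.trans_ne n.succ_ne_zero)
    obtain ⟨m, hm⟩ := Nat.exists_eq_succ_of_ne_zero hj
    refine LL.bind (hM _ T (.inl j) (fromBlocks 1 (Matrix.of fun i l =>
      (p : WittVector p T.K) ^ Function.update N j m i * ξ i l) 0 A) _ (by simp) ?_ hL)
      fun T' f h => ?_
    · ext a b : 1
      rw [mul_diagonal, diagonal_mul]
      rcases a with a | a <;> rcases b with b | b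
      · by_cases e : a = b
        · simp [e]
        · simp [e]
      · by_cases e : a = j
        · simp [e, hm, pow_succ', mul_assoc]
        · simp [e]
      · simp
      · simp
    · rw [blocks_map] at h ⊢
      refine ih T' _ _ (Function.update N j m) ?_ (by convert h using 2; ext i l : 1; simp)
      rw [Finset.sum_update_of_mem (Finset.mem_univ j)]
      rw [← Finset.add_sum_erase _ _ (Finset.mem_univ j), hm, ← Finset.sdiff_singleton_eq_erase]
        at hN
      omega

end P261.B7
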