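import Vale.Agent.P261Z.B7.Defs

/-!
# P261Z, block B: contraction bounds (BON, RIG)
-/

open Matrix

noncomputable section

namespace P261.B7

variable {p : ℕ} [hp : Fact p.Prime]

namespace Bn

section ent

variable {R : Type} [CommRing R] {S : Subring R} {ι κ μ : Type}

theorem mul [Fintype κ] {A : Matrix ι κ R} {B : Matrix κ μ R} (hA : Ent S A) (hB : Ent S B) :
    Ent S (A * B) := fun i j => sum_mem fun k _ => mul_mem (hA i k) (hB k j)

theorem add {A B : Matrix ι κ R} (hA : Ent S A) (hB : Ent S B) : Ent S (A + B) :=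
  fun i j => add_mem (hA i j) (hB i j)

theorem neg {A : Matrix ι κ R} (hA : Ent S A) : Ent S (-A) := fun i j => neg_mem (hA i j)

theorem smul {c : R} {A : Matrix ι κ R} (hc : c ∈ S) (hA : Ent S A) : Ent S (c • A) :=
  fun i j => mul_mem hc (hA i j)

theorem single [DecidableEq ι] [DecidableEq κ] (i : ι) (j : κ) {c : R} (hc : c ∈ S) :
    Ent S (Matrix.single i j c) := fun a b => by
  rw [Matrix.single_apply]
  split_ifs
  exacts [hc, zero_mem _]

variable [Fintype ι] [DecidableEq ι]

omit [Fintype ι] in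
theorem one : Ent S (1 : Matrix ι ι R) := fun i j => by
  rw [one_apply]
  split_ifs
  exacts [one_mem _, zero_mem _]

theorem det_mem {A : Matrix ι ι R} (hA : Ent S A) : A.det ∈ S := by
  have h := S.subtype.map_det (Matrix.of fun i j => (⟨A i j, hA i j⟩ : S))
  exact (show _ = A.det from h) ▸ Subtype.property _

theorem adj {A : Matrix ι ι R} (hA : Ent S A) : Ent S A.adjugate := fun i j => by
  have h := S.subtype.map_adjugate (Matrix.of fun i j => (⟨A i j, hA i j⟩ : S))
  exact (show _ = A.adjugate i j from congrFun (congrFun h i) j) ▸ Subtype.property _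

end ent

variable {T : Tri p} {ι κ : Type}

theorem si_mem {y : WittVector p T.K} (h : y ∈ WI p T.C) : si p T.K y ∈ WI p T.C :=
  mem_wsub.2 fun j => T.rt_mem _ (mem_wsub.1 h j)

theorem of_p_mul {y : WittVector p T.K} (k : ℕ) (h : (p : WittVector p T.K) ^ k * y ∈ WI p T.C) :
    y ∈ WI p T.C := by
  induction k with
  | zero => simpa using h
  | succ k ih =>
    refine ih (mem_wsub.2 fun j => ?_)
    have h1 := T.rt_mem _ (mem_wsub.1 h (j + 1))
    rwa [pow_succ', mul_assoc, coeff_p_mul_succ, rt_pow'] at h1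

theorem rt_pow_mem (k : ℕ) {y : T.K} (h : y ∈ T.C) : (rt p T.K ^ k) y ∈ T.C := by
  induction k with
  | zero => exact h
  | succ k ih => rw [pow_succ']; exact T.rt_mem _ ih

theorem le_bd {y : WittVector p T.K} (h : y ∈ WI p T.C) : y ∈ Bd p T.C :=
  ⟨1, one_mem _, by rwa [Units.val_one, tm_one, one_mul]⟩

variable [Fintype ι] [Fintype κ]

/-- the contraction principle -/
theorem contr {y : Matrix ι κ (WittVector p T.K)} (hy : Ent (Bd p T.C) y)
    {A : Matrix ι ι (WittVector p T.K)} {B : Matrix κ κ (WittVector p T.K)}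
    {Z : Matrix ι κ (WittVector p T.K)} (hA : Ent (WI p T.C) A) (hB : Ent (WI p T.C) B)
    (hZ : Ent (WI p T.C) Z) (k : ℕ)
    (h : (p : WittVector p T.K) ^ k • y = A * y.map (si p T.K) * B + Z) : Ent (WI p T.C) y := by
  classical
  choose t ht ht' using hy
  obtain ⟨s, hs, h0⟩ : ∃ s : T.Kˣ, (s : T.K) ∈ T.C ∧ Ent (WI p T.C) (tm p (s : T.K) • y) := by
    refine ⟨∏ q : ι × κ, t q.1 q.2, ?_, fun i j => ?_⟩
    · rw [Units.coe_prod]
      exact prod_mem fun q _ => ht _ _
    · rw [← Finset.prod_erase_mul _ _ (Finset.mem_univ (i, j)), Units.val_mul, tm_mul,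
        Matrix.smul_apply, smul_eq_mul, mul_assoc, Units.coe_prod]
      exact mul_mem (tm_mem (prod_mem fun q _ => ht _ _)) (ht' i j)
  have h1 : ∀ m : ℕ, Ent (WI p T.C) (tm p ((rt p T.K ^ m) (s : T.K)) • y) := by
    intro m
    induction m with
    | zero => exact h0
    | succ m ih =>
      have h2 : Ent (WI p T.C) (tm p ((rt p T.K ^ (m + 1)) (s : T.K)) • y.map (si p T.K)) := by
        intro i j
        have h3 := si_mem (ih i j)
        rw [Matrix.smul_apply, smul_eq_mul, map_mul, si_tm] at h3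
        rw [pow_succ']
        exact h3
      intro i j
      refine of_p_mul k ?_
      have h4 := add (mul (mul hA h2) hB) (smul (tm_mem (rt_pow_mem (m + 1) hs)) hZ) i j
      rw [Matrix.mul_smul, Matrix.smul_mul, ← smul_add, ← h, smul_comm] at h4
      exact h4
  obtain ⟨N, hN⟩ := T.exh (↑s⁻¹ : T.K)
  refine fun i j => mem_wsub.2 fun l => T.sat _ fun m => ?_
  have h2 := mem_wsub.1 (h1 (l + (N + m)) i j) l
  rw [Matrix.smul_apply, smul_eq_mul, coeff_tm_mul, pow_add (rt p T.K) l, RingHom.mul_def,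
    RingHom.comp_apply, rt_pow_pp] at h2
  obtain ⟨d, hd⟩ := Nat.exists_eq_add_of_le (Nat.lt_pow_self (n := N) (one_lt_p (p := p))).le
  have h3 : (rt p T.K ^ m) (T.w : T.K) = (rt p T.K ^ (N + m))
      ((T.w : T.K) ^ d * ((T.w : T.K) ^ N * (↑s⁻¹ : T.K)) * s) := by
    rw [mul_assoc, mul_assoc, Units.inv_mul, mul_one, ← pow_add, add_comm d, ← hd, add_comm N,
      pow_add, RingHom.mul_def, RingHom.comp_apply, rt_pow_pp']
  rw [h3, map_mul, mul_assoc]
  exact mul_mem (rt_pow_mem _ (mul_mem (pow_mem T.w_mem d) hN)) h2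

variable (p) in
/-- the matrix `p / Hm` -/
def Hn (K : Type) [CommRing K] (h : ℕ) : Matrix (Fin (h + 1)) (Fin (h + 1)) (WittVector p K) :=
  Matrix.of fun i j => if j = i + 1 then (if i = Fin.last h then 1 else (p : WittVector p K)) else 0

omit [Fintype ι] [Fintype κ] in
theorem hm_mul {K : Type} [CommRing K] (h : ℕ) :
    Hm p K h * Hn p K h = (p : WittVector p K) • (1 : Matrix _ _ (WittVector p K)) := by
  ext1 i k
  rw [mul_apply, Finset.sum_eq_single (i - 1)]
  · simp only [Hm, Hn, of_apply, sub_add_cancel, if_true, Matrix.smul_apply, one_apply, eq_comm]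
    split_ifs <;> simp
  · intro j _ hj
    rw [Hm, of_apply, if_neg fun e => hj (by rw [e, add_sub_cancel_right]), zero_mul]
  · simp

omit [Fintype ι] [Fintype κ] in
theorem hn_mul {K : Type} [CommRing K] (h : ℕ) :
    Hn p K h * Hm p K h = (p : WittVector p K) • (1 : Matrix _ _ (WittVector p K)) := by
  ext1 i k
  rw [mul_apply, Finset.sum_eq_single (i + 1)]
  · simp only [Hm, Hn, of_apply, if_true, Matrix.smul_apply, one_apply, add_left_inj]
    split_ifs <;> simp_all
  · intro j _ hj
    rw [Hn, of_apply, if_neg hj, zero_mul]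
  · simp

theorem hm_ent (h : ℕ) : Ent (WI p T.C) (Hm p T.K h) := fun i j => by
  rw [Hm, of_apply]
  split_ifs
  exacts [natCast_mem _ p, one_mem _, zero_mem _]

theorem hn_ent (h : ℕ) : Ent (WI p T.C) (Hn p T.K h) := fun i j => by
  rw [Hn, of_apply]
  split_ifs
  exacts [one_mem _, natCast_mem _ p, zero_mem _]

variable [DecidableEq ι] [DecidableEq κ]

/-- the bound for the inverse -/
theorem inv_bd {A A' B' g g' : Matrix κ κ (WittVector p T.K)} {c : WittVector p T.K}
    (hc : c ∈ WI p T.C) (hA : A.det ∈ WI p T.C) (hB : Ent (WI p T.C) B')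
    (h1 : A' * B' = (p : WittVector p T.K) • (1 : Matrix κ κ (WittVector p T.K)))
    (hg : Ent (WI p T.C) (c • g)) (hg' : Ent (Bd p T.C) g') (h2 : g' * g = 1)
    (h3 : A' * g.map (si p T.K) = g * A) : Ent (WI p T.C) (c ^ Fintype.card κ • g') := by
  have h4 : g'.det * g.det = 1 := by rw [← det_mul, h2, det_one]
  have h5 := congrArg det h3
  have h6 := congrArg det h1
  rw [det_mul, det_mul, ← RingHom.mapMatrix_apply, ← RingHom.map_det] at h5
  rw [det_mul, det_smul, det_one, mul_one] at h6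
  have h7 : si p T.K g'.det * si p T.K g.det = 1 := by rw [← map_mul, h4, map_one]
  have h8 : g'.det ∈ WI p T.C := by
    refine contr (y := Matrix.of fun _ _ : Unit => g'.det) (fun _ _ => det_mem hg')
      (A := Matrix.of fun _ _ => A.det) (B := Matrix.of fun _ _ => B'.det) (Z := 0)
      (fun _ _ => hA) (fun _ _ => det_mem hB) (fun _ _ => zero_mem _) (Fintype.card κ) ?_ () ()
    ext1 i j
    simp only [mul_apply, Finset.univ_unique, Finset.sum_singleton, of_apply, map_apply, add_zero,
      Matrix.smul_apply, smul_eq_mul]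
    linear_combination (-g'.det) * h6 + (g'.det * B'.det * si p T.K g'.det) * h5 -
      (g'.det * A'.det * B'.det) * h7 + (A.det * B'.det * si p T.K g'.det) * h4
  have h9 : g' = g'.det • g.adjugate := by
    calc g' = g'.det • (g' * (g * g.adjugate)) := by
          rw [mul_adjugate, Matrix.mul_smul, Matrix.mul_one, smul_smul, h4, one_smul]
      _ = _ := by rw [← Matrix.mul_assoc, h2, Matrix.one_mul]
  have h10 := smul (mul_mem (pow_mem hc (Fintype.card κ - (Fintype.card κ - 1))) h8) (adj hg)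
  rw [adjugate_smul, smul_smul, mul_right_comm, pow_sub_mul_pow _ (Nat.sub_le _ _), mul_smul,
    ← h9] at h10
  exact h10

end Bn

open Bn

/-- **BON** -/
theorem bon : BON p := by
  rintro h ι κ _ _ _ _ T s ξ A' g g' ⟨e⟩ hs hξ ⟨hA, B', hB, h1, -⟩ hg hg' h2 h3 h4
  have h5 : A' * (g.toCols₁).map (si p T.K) = g.toCols₁ ∧
      A' * (g.toCols₂).map (si p T.K) = g.toCols₁ * ξ + g.toCols₂ * Hm p T.K h := by
    rw [← fromCols_toCols g, fromCols_mul_fromBlocks, fromCols_map, mul_fromCols,
      fromCols_ext_iff] at h4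
    simpa using h4
  have h6 : Ent (WI p T.C) g.toCols₁ :=
    contr (fun i j => hg i _) hA one (Z := 0) (fun _ _ => zero_mem _) 0 (by simp [h5.1])
  have h7 : Ent (WI p T.C) (tm p (s : T.K) • g.toCols₂) := by
    refine contr (smul (le_bd (tm_mem hs)) fun i j => hg i _)
      (smul (tm_mem (pow_mem (T.rt_mem _ hs) (p - 1))) hA) (hn_ent h)
      (neg (mul (mul h6 hξ) (hn_ent h))) 1 ?_
    have e2 : (tm p (s : T.K) • g.toCols₂).map (si p T.K) =
        tm p (rt p T.K s) • g.toCols₂.map (si p T.K) := by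
      ext1 i j
      simp [si_tm]
    rw [e2, Matrix.smul_mul, Matrix.mul_smul, smul_smul (tm p (_ ^ _)), ← tm_mul,
      pow_sub_one_mul p_pos.ne', rt_pow, h5.2, Matrix.mul_smul, ← sub_eq_add_neg,
      ← Matrix.sub_mul, ← smul_sub, add_sub_cancel_left,
      Matrix.smul_mul, Matrix.mul_assoc, hm_mul, pow_one, Matrix.mul_smul, Matrix.mul_one,
      smul_comm]
  have h8 : Ent (WI p T.C) (tm p (s : T.K) • g) := by
    rintro i (j | j)
    exacts [mul_mem (tm_mem hs) (h6 i j), h7 i j]
  refine ⟨h8, fun i j => ?_⟩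
  have h9 := inv_bd (A := (fromBlocks 1 ξ 0 (Hm p T.K h)).submatrix e e) (g := g.submatrix id e)
    (g' := g'.submatrix e id) (tm_mem hs) ?_ hB h1 (fun i j => h8 i _) (fun i j => hg' _ j) ?_ ?_
    (e.symm i) j
  · simpa [tm_pow] using h9
  · rw [det_submatrix_equiv_self, det_fromBlocks_zero₂₁, det_one, one_mul]
    exact det_mem (hm_ent h)
  · rw [← submatrix_mul _ _ _ id _ Function.bijective_id, h3, submatrix_one_equiv]
  · rw [submatrix_mul_equiv, ← h4]
    rfl

/-- the normal form is a lattice -/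
theorem dieu_A1 (h : ℕ) (T : Tri p) {u : T.K} (hu : u ∈ T.C) : Dieu T.C (A1 p h u) := by
  set N : Matrix (Fin (h + 2)) (Fin (h + 2)) (WittVector p T.K) :=
    Matrix.single (Fin.last h).castSucc (Fin.last (h + 1)) (tm p u) with hN
  have e1 : N * N = 0 := single_mul_single_of_ne _ _ _ _ (Fin.castSucc_lt_last _).ne' _
  have e2 : A1 p h u = Hm p T.K (h + 1) * (1 - N) := by
    rw [Matrix.mul_sub, Matrix.mul_one, A1]
    congr 1
    ext1 i j
    by_cases hj : j = Fin.last (h + 1)
    · subst hj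
      rw [hN, mul_single_apply_same, Hm, of_apply, if_neg (Fin.castSucc_lt_last _).ne,
        Fin.coeSucc_eq_succ, Fin.succ_last, Matrix.single_apply]
      simp [eq_comm]
    · rw [hN, mul_single_apply_of_ne _ _ _ _ _ hj, single_apply_of_col_ne _ _ (Ne.symm hj)]
  have e3 : (1 - N) * (1 + N) = 1 := by
    rw [Matrix.sub_mul, Matrix.mul_add, Matrix.mul_add, e1]
    simp
  have h1 : A1 p h u * ((1 + N) * Hn p T.K (h + 1)) = (p : WittVector p T.K) • 1 := by
    rw [e2, Matrix.mul_assoc, ← Matrix.mul_assoc (1 - N), e3, Matrix.one_mul, hm_mul]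
  have hN' : Ent (WI p T.C) N := single _ _ (tm_mem hu)
  refine ⟨?_, _, mul (add one hN') (hn_ent _), h1, ?_⟩
  · rw [e2, sub_eq_add_neg]
    exact mul (hm_ent _) (add one (neg hN'))
  · rw [e2, Matrix.mul_assoc, ← Matrix.mul_assoc (Hn _ _ _), hn_mul, Matrix.smul_mul,
      Matrix.mul_smul, Matrix.one_mul, mul_eq_one_comm.1 e3]

/-- **RIG** -/
theorem rig : RIG p := by
  rintro h T x u hx hu ⟨g, g', hg, hg', h1, h2, h3⟩
  obtain ⟨h4, h5⟩ := bon h Unit (Fin (h + 2)) T 1 (lcol h fun _ => x) _ g g'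
    ⟨Fintype.equivOfCardEq (by simp; omega)⟩ (one_mem _) (fun i j => by
      rw [Units.val_one, tm_one, one_smul, lcol, of_apply]
      split_ifs
      exacts [hx, zero_mem _]) (dieu_A1 h T hu) hg hg' h1 h2 h3
  rw [Units.val_one, tm_one, one_smul] at h4
  rw [Units.val_one, one_pow, tm_one, one_smul] at h5
  let c : WittVector p T.K →+* T.K := WittVector.constantCoeff
  let a : Fin (h + 2) → T.K := fun i => c (g i (.inl ()))
  have hc : c p = 0 := by rw [map_natCast]; exact Ch.char
  have h6 : ∀ i, a i = (if i = 0 then 0 else rt p T.K (a (i - 1))) -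
      if i = Fin.last (h + 1) then u * rt p T.K (a i) else 0 := by
    intro i
    have e1 : (g * Nx h fun _ : Unit => x) i (.inl ()) = g i (.inl ()) := by
      simp [Nx, mul_apply]
    have e2 := congrArg c ((congrFun (congrFun h3 i) (.inl ())).trans e1)
    rw [A1, Matrix.sub_mul, Matrix.sub_apply, map_sub, mul_apply, Finset.sum_eq_single (i - 1)]
      at e2
    · refine e2.symm.trans ?_
      congr 1
      · rw [Hm, of_apply, if_pos (sub_add_cancel _ _).symm, map_mul]
        by_cases hi : i = 0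
        · rw [if_pos hi, if_pos (by rw [hi, sub_eq_iff_eq_add, Fin.last_add_one]), hc, zero_mul]
        · rw [if_neg hi, if_neg fun e => hi (by
            rw [← sub_add_cancel i 1, e, Fin.last_add_one]), map_one, one_mul]
          rfl
      · split_ifs with hi
        · rw [hi, single_mul_apply_same, map_mul]
          rfl
        · rw [single_mul_apply_of_ne _ _ _ _ _ hi, map_zero]
    · intro j _ hj
      rw [Hm, of_apply, if_neg fun e => hj (by rw [e, add_sub_cancel_right]), zero_mul]
    · simp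
  have h7 : ∀ i : Fin (h + 1), a i.castSucc = 0 ∧ i.succ - 1 = i.castSucc := by
    intro i
    refine ⟨?_, by rw [← Fin.coeSucc_eq_succ, add_sub_cancel_right]⟩
    induction i using Fin.induction with
    | zero => rw [h6]; simp
    | succ i ih =>
      rw [h6, if_neg (Fin.castSucc_lt_last _).ne, if_neg (by simp), ← Fin.succ_castSucc,
        ← Fin.coeSucc_eq_succ, add_sub_cancel_right, ih]
      simp
  have h8 := h6 (Fin.last (h + 1))
  rw [if_neg (by simp), if_pos rfl, show Fin.last (h + 1) - 1 = _ from (h7 (Fin.last h)).2,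
    (h7 _).1, map_zero, zero_sub] at h8
  have h9 := congrArg c (congrFun (congrFun h2 (.inl ())) (.inl ()))
  rw [mul_apply, map_sum, Fin.sum_univ_castSucc, Finset.sum_eq_zero fun i _ => by
    rw [map_mul, show c (g _ _) = 0 from (h7 i).1, mul_zero], zero_add, one_apply_eq, map_one,
    map_mul, show c (g _ _) = _ from h8] at h9
  have h10 : (↑u⁻¹ : T.K) = -(c (g' (.inl ()) (Fin.last (h + 1))) *
      rt p T.K (a (Fin.last (h + 1)))) := by
    rw [Units.inv_eq_of_mul_eq_one_right]
    linear_combination h9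
  rw [h10]
  exact neg_mem (mul_mem (mem_wsub.1 (h5 _ _) 0) (T.rt_mem _ (mem_wsub.1 (h4 _ _) 0)))

end P261.B7
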