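import Vale.Agent.P261Z.B7.Basic

/-!
# P261Z, block B7: the modification lemma
-/

open Matrix

noncomputable section

namespace P261.B7

variable {p : ℕ} [hp : Fact p.Prime]

namespace Md

variable {K : Type} [CommRing K] {ι κ : Type} [Fintype ι] [DecidableEq ι]

variable (p K) in
/-- multiplication of one coordinate by `p` -/
abbrev Pd (j : ι) : Matrix ι ι (WittVector p K) :=
  diagonal (Function.update 1 j (p : WittVector p K))

omit [Fintype ι] in
theorem Pd_map {L : Type} [CommRing L] (φ : WittVector p K →+* WittVector p L) (j : ι) :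
    (Pd p K j).map φ = Pd p L j := by
  rw [diagonal_map (map_zero φ)]
  congr 1
  funext i
  by_cases h : i = j
  · subst h; simp
  · simp [h]

/-- the first digit -/
abbrev c0 : WittVector p K →+* K := WittVector.constantCoeff

variable [Pf p K]

theorem c0_p (x : WittVector p K) : c0 ((p : WittVector p K) * x) = 0 := coeff_p_mul_zero x

theorem cancel (j : ι) {X Y : Matrix ι κ (WittVector p K)} (h : Pd p K j * X = Pd p K j * Y) :
    X = Y := by
  ext i k : 1
  have := congrFun (congrFun h i) k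
  rw [diagonal_mul, diagonal_mul] at this
  by_cases e : i = j
  · subst e
    exact p_mul_inj (by simpa using this)
  · simpa [e] using this

theorem conj {S : Subring (WittVector p K)} (hS : ∀ x ∈ S, dv x ∈ S)
    {X : Matrix ι ι (WittVector p K)} (hX : Ent S X) (i j : ι) (h : ∀ k ≠ j, c0 (X i k) = 0) :
    ∃ Y, Ent S Y ∧ Pd p K i * Y = X * Pd p K j := by
  refine ⟨Matrix.of fun a k => if a = i then (if k = j then X a k else dv (X a k)) else
    (if k = j then X a k * p else X a k), fun a k => ?_, ?_⟩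
  · rw [of_apply]
    split_ifs
    exacts [hX _ _, hS _ (hX _ _), mul_mem (hX _ _) (natCast_mem _ _), hX _ _]
  · ext a k : 1
    rw [diagonal_mul, mul_diagonal, of_apply]
    by_cases e : a = i <;> by_cases e' : k = j
    · subst e e'; simp [mul_comm]
    · subst e; simpa [e'] using p_mul_dv (h k e')
    · subst e'; simp [e]
    · simp [e, e']

omit [Pf p K] [DecidableEq ι] in
theorem c0_mul {X : Matrix ι ι (WittVector p K)} {j i : ι} (h : ∀ k ≠ i, c0 (X j k) = 0)
    (Y : Matrix ι κ (WittVector p K)) (k : κ) : c0 ((X * Y) j k) = c0 (X j i) * c0 (Y i k) := by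
  rw [mul_apply, map_sum, Finset.sum_eq_single i (fun l _ hl => by rw [map_mul, h l hl, zero_mul])
    (fun hi => absurd (Finset.mem_univ i) hi), map_mul]

end Md

open Md

variable {ι : Type} [Fintype ι] [DecidableEq ι] {T : Tri p}

/-- the modification when the basis of the lattice is adapted to the quotient -/
theorem Md.core {j i : ι} {A A' A₂ g g' : Matrix ι ι (WittVector p T.K)} (h1 : A j j = 1)
    (h2 : A' * Pd p T.K j = Pd p T.K j * A) (hD : Dieu T.C A₂) (a1 : Ent (Bd p T.C) g)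
    (a2 : Ent (Bd p T.C) g') (a3 : g * g' = 1) (a4 : g' * g = 1)
    (a5 : A₂ * g.map (si p T.K) = g * A') (h : ∀ k ≠ i, c0 (g' j k) = 0) : Lat T.C A := by
  obtain ⟨d1, B₂, d2, d3, d4⟩ := hD
  have r1 : ∀ k ≠ j, c0 (A' j k) = 0 := fun k hk => by
    have := congrFun (congrFun h2 j) k
    rw [diagonal_mul, mul_diagonal, Function.update_self, Function.update_of_ne hk] at this
    rw [← c0_p (A j k), ← this, Pi.one_apply, mul_one]
  have r2 : A' j j = 1 := by
    have := congrFun (congrFun h2 j) j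
    rw [diagonal_mul, mul_diagonal, Function.update_self, h1, mul_comm] at this
    exact p_mul_inj this
  have r3 : ∀ (Y : Matrix ι ι (WittVector p T.K)) k, c0 ((A' * Y) j k) = c0 (Y j k) := fun Y k => by
    rw [c0_mul r1, r2, map_one, one_mul]
  have u1 : IsUnit (c0 (g' j i)) := IsUnit.of_mul_eq_one (c0 (g i j)) (by
    rw [← c0_mul h, a4, one_apply_eq, map_one])
  have h' : ∀ k ≠ i, c0 (g'.map (si p T.K) j k) = 0 := fun k hk =>
    (congrArg (rt p T.K) (h k hk)).trans (map_zero _)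
  have a6 := inv_eq a3 a4 a5
  obtain ⟨A₃, e1, e2⟩ := conj (fun _ => T.dv_mem) d1 i i fun k hk => u1.mul_right_eq_zero.1 (by
    rw [← c0_mul h, ← a6, r3, h' k hk])
  obtain ⟨B₃, e3, e4⟩ := conj (fun _ => T.dv_mem) d2 i i fun k _ =>
    (u1.map (rt p T.K)).mul_right_eq_zero.1 (by
      refine (c0_mul h' B₂ k).symm.trans ?_
      rw [← r3, ← Matrix.mul_assoc, a6, Matrix.mul_assoc, d3, Matrix.mul_smul, Matrix.mul_one]
      exact c0_p _)
  obtain ⟨k, e5, e6⟩ := conj (fun _ => T.dv_mem') a1 i j fun k hk => u1.mul_right_eq_zero.1 (by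
    rw [← c0_mul h, a4, one_apply_ne' hk, map_zero])
  obtain ⟨k', e7, e8⟩ := conj (fun _ => T.dv_mem') a2 j i h
  refine ⟨A₃, ⟨e1, B₃, e3, cancel i ?_, cancel i ?_⟩, k, k', e5, e7, cancel i ?_, cancel j ?_,
    cancel i ?_⟩
  · rw [← Matrix.mul_assoc, e2, Matrix.mul_assoc, e4, ← Matrix.mul_assoc, d3, Matrix.mul_smul,
      Matrix.smul_mul, Matrix.mul_one, Matrix.one_mul]
  · rw [← Matrix.mul_assoc, e4, Matrix.mul_assoc, e2, ← Matrix.mul_assoc, d4, Matrix.mul_smul,
      Matrix.smul_mul, Matrix.mul_one, Matrix.one_mul]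
  · rw [← Matrix.mul_assoc, e6, Matrix.mul_assoc, e8, ← Matrix.mul_assoc, a3, Matrix.mul_one,
      Matrix.one_mul]
  · rw [← Matrix.mul_assoc, e8, Matrix.mul_assoc, e6, ← Matrix.mul_assoc, a4, Matrix.mul_one,
      Matrix.one_mul]
  · have e9 : Pd p T.K i * k.map (si p T.K) = g.map (si p T.K) * Pd p T.K j := by
      rw [← Pd_map (si p T.K) i, ← Matrix.map_mul, e6, Matrix.map_mul, Pd_map]
    rw [← Matrix.mul_assoc, e2, Matrix.mul_assoc, e9, ← Matrix.mul_assoc, a5, Matrix.mul_assoc, h2,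
      ← Matrix.mul_assoc, ← e6, Matrix.mul_assoc]

/-- integral change of basis -/
theorem Dieu.conj {A U U' : Matrix ι ι (WittVector p T.K)} (h : Dieu T.C A)
    (h1 : Ent (WI p T.C) U) (h2 : Ent (WI p T.C) U') (h3 : U * U' = 1) (h4 : U' * U = 1) :
    Dieu T.C (U' * A * U.map (si p T.K)) := by
  obtain ⟨d1, B, d2, d3, d4⟩ := h
  have h5 : U.map (si p T.K) * U'.map (si p T.K) = 1 := by rw [← Matrix.map_mul, h3, map_one']
  have h6 : U'.map (si p T.K) * U.map (si p T.K) = 1 := by rw [← Matrix.map_mul, h4, map_one']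
  refine ⟨(h2.mul d1).mul (h1.map fun _ => T.si_mem), U'.map (si p T.K) * B * U,
    ((h2.map fun _ => T.si_mem).mul d2).mul h1, ?_, ?_⟩
  · calc _ = U' * (A * ((U.map (si p T.K) * U'.map (si p T.K)) * B)) * U := by
          simp only [Matrix.mul_assoc]
      _ = _ := by rw [h5, Matrix.one_mul, d3, Matrix.mul_smul, Matrix.smul_mul, Matrix.mul_one, h4]
  · calc _ = U'.map (si p T.K) * (B * ((U * U') * A)) * U.map (si p T.K) := by
          simp only [Matrix.mul_assoc]
      _ = _ := by rw [h3, Matrix.one_mul, d4, Matrix.mul_smul, Matrix.smul_mul, Matrix.mul_one, h6]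

theorem Md.core' {j i : ι} {A A' A₂ g g' : Matrix ι ι (WittVector p T.K)} (h1 : A j j = 1)
    (h2 : A' * Pd p T.K j = Pd p T.K j * A) (hD : Dieu T.C A₂) (a1 : Ent (Bd p T.C) g)
    (a2 : Ent (Bd p T.C) g') (a3 : g * g' = 1) (a4 : g' * g = 1)
    (a5 : A₂ * g.map (si p T.K) = g * A')
    (h : ∀ k, ∃ t ∈ T.C, c0 (g' j k) = c0 (g' j i) * t) : Lat T.C A := by
  choose t ht h using h
  let N : Matrix ι ι (WittVector p T.K) :=
    Matrix.of fun a k => if a = i then (if k = i then 0 else tm p (t k)) else 0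
  have n1 : Ent (WI p T.C) N := fun a k => by
    simp only [N, of_apply]
    split_ifs
    exacts [zero_mem _, tm_mem (ht k), zero_mem _]
  have n2 : ∀ (Y : Matrix ι ι (WittVector p T.K)) a k, (Y * N) a k = Y a i * N i k := fun Y a k =>
    Finset.sum_eq_single i (fun l _ hl => by simp [N, hl]) fun hi => absurd (Finset.mem_univ i) hi
  have n3 : N * N = 0 := by
    ext a k : 1
    rw [n2, show N a i = 0 by simp [N], zero_mul, Matrix.zero_apply]
  have n4 : (1 - N) * (1 + N) = 1 := by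
    rw [sub_mul, mul_add, mul_add, n3]; simp
  have n5 : (1 + N) * (1 - N) = 1 := mul_eq_one_comm.1 n4
  have n6 := Ent.one.sub n1
  have n7 := Ent.one.add n1
  refine core (i := i) (g := (1 + N) * g) (g' := g' * (1 - N)) h1 h2 (hD.conj n6 n7 n4 n5)
    ((n7.mono WI.le_Bd).mul a1) (a2.mul (n6.mono WI.le_Bd)) ?_ ?_ ?_ fun k hk => ?_
  · rw [Matrix.mul_assoc, ← Matrix.mul_assoc g, a3, Matrix.one_mul, n5]
  · rw [Matrix.mul_assoc, ← Matrix.mul_assoc (1 - N), n4, Matrix.one_mul, a4]
  · rw [Matrix.mul_assoc, ← Matrix.map_mul, ← Matrix.mul_assoc (1 - N), n4, Matrix.one_mul,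
      Matrix.mul_assoc, a5, Matrix.mul_assoc]
  · rw [mul_sub, Matrix.mul_one, Matrix.sub_apply, n2, map_sub, map_mul, h k, sub_eq_zero]
    simp [N, hk]

theorem mod_of (h : MAXD p) : MOD p := by
  intro ι _ _ T j A A' h1 h2 ⟨A₂, hD, g, g', a1, a2, a3, a4, a5⟩
  obtain ⟨t, ht, e⟩ := a2.den
  have : Nonempty ι := ⟨j⟩
  refine (h ι T (fun k => t * c0 (g' j k)) fun k => ?_).mono fun T' f ⟨i, hi⟩ => ?_
  · simpa [coeff_tm_mul] using mem_wsub.1 (e j k) 0
  refine core' (j := j) (i := i) (A' := A'.map (wm p f.f)) (g := g.map (wm p f.f))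
    (g' := g'.map (wm p f.f)) (by rw [map_apply, h1, map_one]) ?_ (hD.map f.mem)
    (a1.map fun _ => Bd.map f.mem) (a2.map fun _ => Bd.map f.mem)
    (by rw [← Matrix.map_mul, a3, map_one']) (by rw [← Matrix.map_mul, a4, map_one']) ?_
    fun k => ?_
  · rw [← Pd_map (wm p f.f), ← Matrix.map_mul, ← Matrix.map_mul, h2]
  · rw [← Matrix.map_mul, ← a5, Matrix.map_mul]
    congr 1
    ext a b : 1
    exact (wm_si f.f _).symm
  · obtain ⟨u, hu, e'⟩ := hi k
    rw [map_mul, map_mul, mul_assoc] at e'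
    exact ⟨u, hu, (t.isUnit.map f.f).mul_left_cancel e'⟩

theorem mod : MOD p := mod_of maxd

end P261.B7
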