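import Vale.Agent.P261Z.B7.Move

/-!
# P261Z, block B: the lattice for the class `[1 / s]`
-/

open Matrix

noncomputable section

namespace P261.B7

variable {p : ℕ} [hp : Fact p.Prime]

namespace N6

theorem rt_step {K : Type} [CommRing K] [Pf p K] (w : K) (k : ℕ) :
    (rt p K ^ k) w = (rt p K ^ (k + 1)) w ^ p := by
  rw [pow_succ', RingHom.mul_def, RingHom.comp_apply, rt_pow]

theorem two_add : ∃ d, p = d + 2 := ⟨p - 2, (Nat.sub_add_cancel hp.out.two_le).symm⟩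

/-- invert an element of `C` -/
def away (T : Tri p) (s : T.K) (hs : s ∈ T.C) : Tri p where
  K := T.K
  C :=
    { carrier := {y | ∀ k : ℕ, ∃ N : ℕ, (rt p T.K ^ k) (T.w : T.K) * (s ^ N * y) ∈ T.C}
      mul_mem' := fun {x y} hx hy k => by
        obtain ⟨N, h1⟩ := hx (k + 1)
        obtain ⟨M, h2⟩ := hy (k + 1)
        obtain ⟨d, hd⟩ := two_add (p := p)
        refine ⟨N + M, ?_⟩
        convert mul_mem (pow_mem (T.rt_pow_mem (k + 1) T.w_mem) d) (mul_mem h1 h2) using 1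
        rw [rt_step _ k]
        generalize (rt p T.K ^ (k + 1)) (T.w : T.K) = z
        rw [show z ^ p = z ^ (d + 2) from congrArg (z ^ ·) hd]
        ring
      one_mem' := fun k => ⟨0, by simpa using T.rt_pow_mem k T.w_mem⟩
      add_mem' := fun {x y} hx hy k => by
        obtain ⟨N, h1⟩ := hx k
        obtain ⟨M, h2⟩ := hy k
        refine ⟨N + M, ?_⟩
        convert add_mem (mul_mem (pow_mem hs M) h1) (mul_mem (pow_mem hs N) h2) using 1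
        ring
      zero_mem' := fun k => ⟨0, by simp⟩
      neg_mem' := fun {x} hx k => let ⟨N, h⟩ := hx k; ⟨N, by simpa using neg_mem h⟩ }
  w := T.w
  w_mem := fun k => ⟨0, by simpa using mul_mem (T.rt_pow_mem k T.w_mem) T.w_mem⟩
  rt_mem := fun y hy k => by
    obtain ⟨N, h1⟩ := hy k
    obtain ⟨c, hc, e⟩ := T.rt_dvd (mul_mem (T.rt_pow_mem k T.w_mem) (pow_mem hs N)) 1
    refine ⟨N, ?_⟩
    have h2 := mul_mem hc (T.rt_mem _ h1)
    rw [← mul_assoc, e, pow_one]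
    convert h2 using 1
    simp only [map_mul]
    ring
  exh := fun y => let ⟨N, h⟩ := T.exh y; ⟨N, fun k => ⟨0, by
    simpa using mul_mem (T.rt_pow_mem k T.w_mem) h⟩⟩
  sat := fun y hy k => by
    obtain ⟨N, h1⟩ := hy (k + 1) (k + 1)
    obtain ⟨d, hd⟩ := two_add (p := p)
    refine ⟨N, ?_⟩
    convert mul_mem (pow_mem (T.rt_pow_mem (k + 1) T.w_mem) d) h1 using 1
    rw [rt_step _ k]
    generalize (rt p T.K ^ (k + 1)) (T.w : T.K) = z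
    rw [show z ^ p = z ^ (d + 2) from congrArg (z ^ ·) hd]
    ring

theorem le_away (T : Tri p) (s : T.K) (hs : s ∈ T.C) {y : T.K} (hy : y ∈ T.C) :
    y ∈ (away T s hs).C := fun k => ⟨0, by simpa using mul_mem (T.rt_pow_mem k T.w_mem) hy⟩

theorem mono {K ι κ : Type} [CommRing K] [Pf p K] [Fintype ι] [Fintype κ] [DecidableEq ι]
    [DecidableEq κ] {C C' : Subring K} (hC : ∀ y ∈ C, y ∈ C') {A : Matrix ι ι (WittVector p K)}
    {A' : Matrix κ κ (WittVector p K)} (h : Iso C A A') : Iso C' A A' :=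
  have e : Bd p C ≤ Bd p C' := fun _ ⟨t, ht, e⟩ =>
    ⟨t, hC _ ht, mem_wsub.2 fun j => hC _ (mem_wsub.1 e j)⟩
  let ⟨g, g', a1, a2, a3⟩ := h
  ⟨g, g', a1.mono e, a2.mono e, a3⟩

/-- one pair over which the normal form has the class `[1 / s]` -/
theorem ex (hI : IGU p) (hN : NT p) (h0 : NONT p) (hR : RIG p) (h : ℕ) :
    ∃ (T : Tri p) (s : T.Kˣ), (↑T.w⁻¹ : T.K) ∉ T.C ∧ (s : T.K) ∈ T.C ∧
      Iso T.C (Nx h fun _ : Unit => tm p (↑s⁻¹ : T.K)) (A1 p h (T.w : T.K)) := by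
  obtain ⟨T₀, h0⟩ := h0
  by_contra hn
  refine h0 (hN T₀ ((hI h T₀).bind fun T' _ ⟨x, hx, h1⟩ =>
    (sl h T' (fun _ : Unit => x) fun _ => hx).bind fun T'' g ⟨y, h2⟩ => ?_))
  obtain ⟨N, hN⟩ := T''.exh (y ())
  refine .bl _ _ (pow_mem T''.w_mem N) hN fun T₃ k ⟨t, ht, e⟩ => .here ?_
  have h3 := h1.map g.mem
  rw [Nx_map, A1_map, g.map_w] at h3
  have h4 := (h2.symm.trans h3).map k.mem
  rw [Nx_map, A1_map, k.map_w] at h4
  simp only [wm_tm] at h4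
  simp only [map_mul, map_pow, k.map_w] at e
  show (↑T₃.w⁻¹ : T₃.K) ∈ T₃.C
  rcases e with e | e
  · have e' : k.f (y ()) * t = 1 :=
      ((T₃.w.isUnit.pow N).mul_left_cancel (by rw [mul_one, ← mul_assoc, ← e])).symm
    by_contra h5
    exact hn ⟨T₃, ⟨t, k.f (y ()), by rw [mul_comm, e'], e'⟩, h5, ht, h4⟩
  · have e' := (T₃.w.isUnit.pow N).mul_left_cancel e
    exact hR h T₃ (tm p (k.f (y ()))) T₃.w (tm_mem (by rw [e']; exact ht)) T₃.w_mem h4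

end N6

theorem nf6_of (hI : IGU p) (hN : NT p) (h0 : NONT p) (hF : FF1 p) (hR : RIG p) :
    NF6 p := by
  intro h
  obtain ⟨T₀, s₀, h1, h2, h3⟩ := N6.ex hI hN h0 hR h
  obtain ⟨M, hM⟩ : ∃ M : ℕ, (s₀ : T₀.K) ^ M * (↑T₀.w⁻¹ : T₀.K) ∈ T₀.C := by
    have a1 := N6.mono (C' := (N6.away T₀ s₀ h2).C) (fun _ => N6.le_away T₀ s₀ h2) h3
    obtain ⟨N, a2⟩ := hR h (N6.away T₀ s₀ h2) _ T₀.w (tm_mem fun k => ⟨1, by
      simpa using T₀.rt_pow_mem k T₀.w_mem⟩) (N6.le_away T₀ s₀ h2 T₀.w_mem) a1 1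
    obtain ⟨d, hd⟩ := N6.two_add (p := p)
    refine ⟨N * p, ?_⟩
    convert mul_mem (pow_mem T₀.w_mem d) (pow_mem a2 p) using 1
    show _ = (T₀.w : T₀.K) ^ d * ((rt p T₀.K ^ 1) (T₀.w : T₀.K) * (s₀ ^ N * ↑T₀.w⁻¹)) ^ p
    rw [mul_pow, mul_pow, pow_one, rt_pow, ← pow_mul]
    have e : (T₀.w : T₀.K) * (↑T₀.w⁻¹ : T₀.K) = 1 := T₀.w.mul_inv
    generalize (s₀ : T₀.K) ^ (N * p) = z
    generalize (↑T₀.w⁻¹ : T₀.K) = v at e ⊢
    rw [show v ^ p = v ^ (d + 2) from congrArg (v ^ ·) hd]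
    linear_combination (-z * v) * (congrArg (· ^ (d + 1)) e).trans (one_pow _)
  obtain ⟨k, hk⟩ := T₀.exh (↑s₀⁻¹ : T₀.K)
  obtain ⟨c, hc, e⟩ : ∃ c ∈ T₀.C, (T₀.w : T₀.K) = (rt p T₀.K ^ k) (s₀ : T₀.K) * c := by
    obtain ⟨d, hd⟩ := Nat.exists_eq_add_of_le (Nat.lt_pow_self (n := k) (one_lt_p (p := p))).le
    refine ⟨_, mul_mem (T₀.rt_pow_mem k hk) (pow_mem (T₀.rt_pow_mem k T₀.w_mem) d), ?_⟩
    rw [← mul_assoc, ← map_mul, mul_left_comm, s₀.mul_inv, mul_one, map_pow, ← pow_add, ← hd,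
      rt_pow_pp]
  refine ⟨k, fun T s hs => (hF T₀ s₀ h2 (fun a => h1 ?_) (fun y => ?_) T s hs).mono
    fun T' f H => H.imp_right fun ⟨φ, a1, a2⟩ => ⟨φ c, a1 c hc, ?_⟩⟩
  · convert mul_mem (pow_mem a M) hM using 1
    rw [← mul_assoc, ← mul_pow, s₀.inv_mul, one_pow, one_mul]
  · obtain ⟨N, hN⟩ := T₀.exh y
    refine ⟨M * N, ?_⟩
    convert mul_mem (pow_mem hM N) hN using 1
    rw [mul_pow, mul_assoc, ← mul_assoc (_ ^ N) (_ ^ N) y, ← mul_pow, T₀.w.inv_mul, one_pow,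
      one_mul, pow_mul]
  · have a3 := h3.map a1
    have a4 : φ (↑s₀⁻¹ : T₀.K) = f.f (↑s⁻¹ : T.K) := by
      rw [← mul_one (φ _), ← map_one f.f, ← s.mul_inv, map_mul, ← a2, ← mul_assoc, ← map_mul,
        s₀.inv_mul, map_one, one_mul]
    rw [Nx_map, A1_map, e, map_mul, map_rt_pow, a2] at a3
    simpa only [wm_tm, a4] using a3

end P261.B7
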