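import Vale.Agent.P261Z.B7.Defs

/-!
# P261Z, block B: a pair with non empty special fibre
-/

noncomputable section

namespace P261.B7

variable {p : ℕ} [hp : Fact p.Prime]

namespace Nont

open AddMonoidAlgebra

variable (p) in
/-- multiplication by `p` -/
def mp : ℚ ≃+ ℚ :=
  { Equiv.mulLeft₀ (p : ℚ) (Nat.cast_ne_zero.2 hp.out.ne_zero) with map_add' := mul_add _ }

theorem mp_apply (q : ℚ) : mp p q = p * q := rfl

theorem pow_eq (x : AddMonoidAlgebra (ZMod p) ℚ) :
    x ^ p = domCongr (ZMod p) (ZMod p) (mp p) x := by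
  have : Ch p (AddMonoidAlgebra (ZMod p) ℚ) := Ch.of_hom (algebraMap (ZMod p) _)
  have h : fr p (AddMonoidAlgebra (ZMod p) ℚ) =
      (domCongr (ZMod p) (ZMod p) (mp p)).toRingEquiv.toRingHom := by
    refine AddMonoidAlgebra.ringHom_ext (fun r => ?_) fun a => ?_
    · simp [fr_apply, single_pow]
    · simp [fr_apply, single_pow, mp_apply]
  exact DFunLike.congr_fun h x

instance : Pf p (AddMonoidAlgebra (ZMod p) ℚ) :=
  { char := (Ch.of_hom (p := p) (algebraMap (ZMod p) _)).char
    bij := by
      rw [funext pow_eq]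
      exact AlgEquiv.bijective _ }

theorem coeff_pow (x : AddMonoidAlgebra (ZMod p) ℚ) (q : ℚ) :
    (x ^ p).coeff (p * q) = x.coeff q := by
  rw [pow_eq, coeff_domCongr, ← mp_apply, AddEquiv.symm_apply_apply]

variable (p) in
/-- non negative exponents -/
def pos : Subring (AddMonoidAlgebra (ZMod p) ℚ) where
  carrier := {y | ∀ q ∈ y.coeff.support, 0 ≤ q}
  mul_mem' := fun {a b} ha hb q hq => by
    obtain ⟨u, hu, v, hv, rfl⟩ := Finset.mem_add.1 (support_coeff_mul_subset a b hq)
    exact add_nonneg (ha u hu) (hb v hv)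
  one_mem' := fun q hq => by
    rw [one_def, coeff_single] at hq
    exact (Finset.mem_singleton.1 (Finsupp.support_single_subset hq)).ge
  add_mem' := fun {a b} ha hb q hq =>
    (Finset.mem_union.1 (Finsupp.support_add hq)).elim (ha q) (hb q)
  zero_mem' := fun q hq => absurd hq (Finset.notMem_empty q)
  neg_mem' := fun {a} ha q hq => ha q (Finsupp.support_neg a.coeff ▸ hq)

theorem single_mul_mem {a : ℚ} {y : AddMonoidAlgebra (ZMod p) ℚ} :
    single a 1 * y ∈ pos p ↔ ∀ q ∈ y.coeff.support, 0 ≤ a + q := by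
  refine ⟨fun h q hq => h _ ?_, fun h q hq => ?_⟩
  · rwa [Finsupp.mem_support_iff, coeff_single_mul_add, one_mul, ← Finsupp.mem_support_iff]
  · rw [Finsupp.mem_support_iff, coeff_single_mul_apply, one_mul, ← Finsupp.mem_support_iff] at hq
    simpa using h _ hq

theorem rt_single (k : ℕ) : (rt p (AddMonoidAlgebra (ZMod p) ℚ) ^ k) (single 1 1) =
    single (1 / (p : ℚ) ^ k) 1 := pow_pp_inj k (by
  have : (p : ℚ) ≠ 0 := Nat.cast_ne_zero.2 hp.out.ne_zero
  rw [rt_pow_pp, single_pow, one_pow, nsmul_eq_mul, Nat.cast_pow,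
    mul_one_div_cancel (pow_ne_zero _ this)])

end Nont

open Nont

theorem nont : NONT p := by
  have p0 : (0 : ℚ) < p := Nat.cast_pos.2 hp.out.pos
  have s1 : ∀ a : ℚ, AddMonoidAlgebra.single a (1 : ZMod p) ∈ pos p ↔ 0 ≤ a := fun a => by
    rw [← mul_one (AddMonoidAlgebra.single a _), single_mul_mem, AddMonoidAlgebra.one_def,
      AddMonoidAlgebra.coeff_single, Finsupp.support_single _ one_ne_zero]
    simp
  refine ⟨{ K := AddMonoidAlgebra (ZMod p) ℚ
            C := pos p
            w := ⟨.single 1 1, .single (-1) 1, by simp [AddMonoidAlgebra.single_mul_single,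
              AddMonoidAlgebra.one_def], by simp [AddMonoidAlgebra.single_mul_single,
              AddMonoidAlgebra.one_def]⟩
            w_mem := (s1 1).2 zero_le_one
            rt_mem := fun y hy q hq => ?_
            exh := fun y => ?_
            sat := fun y h q hq => ?_ }, fun h => absurd ((s1 _).1 h) (by norm_num)⟩
  · rw [Finsupp.mem_support_iff, ← coeff_pow, rt_pow, ← Finsupp.mem_support_iff] at hq
    exact nonneg_of_mul_nonneg_right (hy _ hq) p0
  · obtain ⟨b, hb⟩ := y.coeff.support.bddBelow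
    obtain ⟨N, hN⟩ := exists_nat_ge (-b)
    refine ⟨N, ?_⟩
    rw [AddMonoidAlgebra.single_pow, one_pow, single_mul_mem]
    intro q hq
    rw [nsmul_one]
    linarith [hb hq]
  · refine le_of_not_gt fun h1 => ?_
    obtain ⟨k, hk⟩ := pow_unbounded_of_one_lt (1 / -q)
      (show (1 : ℚ) < p by exact_mod_cast hp.out.one_lt)
    have h2 := h k
    rw [rt_single, single_mul_mem] at h2
    have h3 := (one_div_lt (pow_pos p0 k) (neg_pos.2 h1)).2 hk
    linarith [h2 q hq]

end P261.B7
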