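import Vale.Agent.P261Z.B7.FF1
import Vale.Agent.P261Z.W.Pole

/-!
# P261Z, block B: covers are onto the special fibre
-/

open TensorProduct

noncomputable section

namespace P261.B7

variable {p : ℕ} [hp : Fact p.Prime]

namespace Nt

/-- the saturation of a pair -/
def sat {K : Type} [CommRing K] [Pf p K] (C : Subring K) (w : Kˣ) (hw : (w : K) ∈ C)
    (hC : ∀ x, x ^ p ∈ C → x ∈ C) (he : ∀ y : K, ∃ N : ℕ, (w : K) ^ N * y ∈ C) : Tri p where
  K := K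
  C := (Fil.pole C w hw hC).zero
  w := w
  w_mem := Fil.pole_of_mem (hw := hw) (hC := hC) hw
  rt_mem y hy := (Fil.pole C w hw hC).root (by rw [rt_pow, mul_zero]; exact hy)
  exh y := (he y).imp fun _ => Fil.pole_of_mem (hw := hw) (hC := hC)
  sat y h := Fil.closed_pole.of_pow (b := 1) fun n => by
    have h1 : (rt p K ^ n) (↑w⁻¹ : K) ∈ (Fil.pole C w hw hC).F (1 / p ^ n) := Fil.root_pow n (by
      rw [rt_pow_pp, mul_one_div_cancel (pow_pos p_pos' n).ne']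
      exact Fil.pole_inv)
    have h2 := (Fil.pole C w hw hC).mul_mem h1 (h n)
    rwa [← mul_assoc, ← map_mul, w.inv_mul, map_one, one_mul, add_comm] at h2

/-- a place at which `w` is neither zero nor a unit -/
theorem place {D : Type} [CommRing D] [Ch p D] (w : D)
    (h : ∀ (a : ℕ) (d : D), w ^ a * (1 - w * d) ≠ 0) :
    ∃ (L : Type) (_ : Field L) (_ : Pf p L) (V : ValuationSubring L) (θ : D →+* L),
      (∀ d, θ d ∈ V) ∧ θ w ≠ 0 ∧ (θ w)⁻¹ ∉ V := by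
  let S : Submonoid D :=
    { carrier := {x | ∃ (a : ℕ) (d : D), x = w ^ a * (1 - w * d)}
      one_mem' := ⟨0, 0, by simp⟩
      mul_mem' := by
        rintro _ _ ⟨a, d, rfl⟩ ⟨b, e, rfl⟩
        exact ⟨a + b, d + e - w * d * e, by ring⟩ }
  obtain ⟨P, hP, -, hd⟩ := (⊥ : Ideal D).exists_le_prime_disjoint S
    (Set.disjoint_left.2 fun x hx ⟨a, d, e⟩ => h a d (e ▸ hx))
  let L := AlgebraicClosure (FractionRing (D ⧸ P))
  let θ : D →+* L := (algebraMap _ L).comp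
    ((algebraMap (D ⧸ P) (FractionRing (D ⧸ P))).comp (Ideal.Quotient.mk P))
  have h1 : ∀ (a : ℕ) (d : D), θ (w ^ a * (1 - w * d)) ≠ 0 := fun a d e =>
    Set.disjoint_left.1 hd (Ideal.Quotient.eq_zero_iff_mem.1
      ((map_eq_zero_iff _ (IsFractionRing.injective _ (FractionRing (D ⧸ P)))).1
        ((map_eq_zero (algebraMap _ L)).1 e))) ⟨a, d, rfl⟩
  have : Ch p L := Ch.of_hom θ
  have : CharP L p := Ch.charP
  have h2 : θ w ≠ 0 := by simpa using h1 1 0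
  obtain ⟨V, h3, h4⟩ := (Ideal.span {θ.rangeRestrict w}).image_subset_nonunits_valuationSubring
    fun e => by
      obtain ⟨y, hy⟩ := (Ideal.span_singleton_eq_top.1 e).exists_right_inv
      obtain ⟨d, rfl⟩ := θ.rangeRestrict_surjective y
      exact h1 0 d (by simpa [sub_eq_zero] using (congrArg Subtype.val hy).symm)
  exact ⟨L, inferInstance, Pf.of_charP, V, θ, fun d => h3 ⟨d, rfl⟩, h2,
    (V.mem_nonunits_iff_or.1 (h4 ⟨_, Ideal.mem_span_singleton_self _, rfl⟩)).resolve_left h2⟩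

theorem val (T : Tri p) {D : Type} [CommRing D] (χ : T.C →+* D)
    (h : ∀ (a : ℕ) (d : D), χ ⟨_, T.w_mem⟩ ^ a * (1 - χ ⟨_, T.w_mem⟩ * d) ≠ 0) :
    ∃ (T' : Tri p) (f : T.Hom T') (ψ : D →+* T'.K), (∀ d, ψ d ∈ T'.C) ∧ (∀ c, ψ (χ c) = f.f c) ∧
      (↑T'.w⁻¹ : T'.K) ∉ T'.C ∧ ∀ a b : T'.K, ∃ t ∈ T'.C, a = b * t ∨ b = a * t := by
  have : Ch p D := Ch.of_hom χ
  obtain ⟨L, _, _, V, θ, h1, h2, h3⟩ := place (p := p) _ h
  generalize hw : θ (χ ⟨_, T.w_mem⟩) = w at h2 h3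
  have h4 : w ∈ V := hw ▸ h1 _
  obtain ⟨d, hd⟩ : ∃ d, p = d + 2 := ⟨p - 2, (Nat.sub_add_cancel hp.out.two_le).symm⟩
  have h5 : ∀ x : L, x ^ p ∈ V → x ∈ V := fun x hx => (V.mem_or_inv_mem x).elim id fun hi => by
    by_cases h0 : x = 0
    · exact h0 ▸ zero_mem _
    convert mul_mem hx (pow_mem hi (d + 1)) using 1
    rw [show x ^ p = x ^ (d + 2) from congrArg (x ^ ·) hd, inv_pow]
    field_simp
    ring
  let K : Subring L :=
    { carrier := {y | ∃ N : ℕ, w ^ N * y ∈ V}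
      mul_mem' := fun ⟨N, a⟩ ⟨M, b⟩ => ⟨N + M, by convert mul_mem a b using 1; ring⟩
      one_mem' := ⟨0, by simp⟩
      add_mem' := fun ⟨N, a⟩ ⟨M, b⟩ => ⟨N + M, by
        convert add_mem (mul_mem (pow_mem h4 M) a) (mul_mem (pow_mem h4 N) b) using 1; ring⟩
      zero_mem' := ⟨0, by simp⟩
      neg_mem' := fun ⟨N, a⟩ => ⟨N, by simpa using a⟩ }
  have hK : ∀ y ∈ V, y ∈ K := fun y hy => ⟨0, by simpa using hy⟩
  have : Pf p K := Pf.subring K fun x ⟨N, a⟩ => ⟨N, h5 _ (by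
    convert mul_mem (pow_mem (pow_mem h4 N) (d + 1)) a using 1
    rw [mul_pow, rt_pow, show (w ^ N) ^ p = (w ^ N) ^ (d + 2) from congrArg (_ ^ ·) hd]
    ring)⟩
  let u : Kˣ := ⟨⟨w, hK _ h4⟩, ⟨w⁻¹, 1, by simp [h2]⟩, Subtype.ext (mul_inv_cancel₀ h2),
    Subtype.ext (inv_mul_cancel₀ h2)⟩
  let T' : Tri p := sat (V.toSubring.comap K.subtype) u h4 (fun x => h5 x) fun y => y.2
  have h6 : ∀ y : T'.K, y.1 ∈ V → y ∈ T'.C := fun y hy => Fil.pole_of_mem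
    (C := V.toSubring.comap K.subtype) (w := u) (hw := h4) (hC := fun x => h5 x) hy
  let ψ : D →+* K := θ.codRestrict K fun d => hK _ (h1 d)
  have := away_of_exh T.C T.w T.w_mem T.exh
  have h7 : ψ.comp χ ⟨_, T.w_mem⟩ = u := Subtype.ext hw
  have h8 : IsUnit (ψ.comp χ ⟨_, T.w_mem⟩) := h7 ▸ u.isUnit
  have h9 := IsLocalization.Away.lift_eq (S := T.K) (⟨_, T.w_mem⟩ : T.C) h8
  refine ⟨T', ⟨(IsLocalization.Away.lift (⟨_, T.w_mem⟩ : T.C) h8 : T.K →+* K),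
    fun a ha => h6 _ ((congrArg Subtype.val (h9 ⟨a, ha⟩)).symm ▸ h1 _),
    (h9 ⟨_, T.w_mem⟩).trans h7⟩, ψ, fun d => h6 _ (h1 d),
    fun c => (h9 c).symm, fun e => h3 ?_, fun a b => ?_⟩
  · have h10 : w * w⁻¹ ^ p ^ 1 ∈ V := Fil.pole_zero_iff (C := V.toSubring.comap K.subtype)
      (w := u) (hw := h4) (hC := fun x => h5 x) (x := ↑u⁻¹) |>.1 e 1
    convert mul_mem (pow_mem h4 d) h10 using 1
    rw [pow_one, show w⁻¹ ^ p = w⁻¹ ^ (d + 2) from congrArg (_ ^ ·) hd, inv_pow]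
    field_simp
    ring
  · obtain ⟨t, ht⟩ : ∃ t ∈ V, (a.1 : L) = b.1 * t ∨ (b.1 : L) = a.1 * t := by
      by_cases ha : a.1 = 0
      · exact ⟨0, zero_mem _, .inl (by simp [ha])⟩
      by_cases hb : b.1 = 0
      · exact ⟨0, zero_mem _, .inr (by simp [hb])⟩
      rcases V.mem_or_inv_mem (a.1 / b.1) with e | e
      · exact ⟨_, e, .inl (by field_simp)⟩
      · exact ⟨_, e, .inr (by field_simp)⟩
    exact ⟨⟨t, hK _ ht.1⟩, h6 _ ht.1, ht.2.imp Subtype.ext Subtype.ext⟩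

theorem ne (T : Tri p) (h : (↑T.w⁻¹ : T.K) ∉ T.C) (a : ℕ) (d : T.C) :
    (⟨_, T.w_mem⟩ : T.C) ^ a * (1 - ⟨_, T.w_mem⟩ * d) ≠ 0 := fun e => h (by
  have e' : (T.w : T.K) ^ a * (1 - T.w * d) = 0 := congrArg Subtype.val e
  rw [(T.w.isUnit.pow a).mul_right_eq_zero, sub_eq_zero] at e'
  exact Units.inv_eq_of_mul_eq_one_right e'.symm ▸ d.2)

/-- every cover has a leaf with non empty special fibre -/
theorem leaf {T : Tri p} {P : (T' : Tri p) → T.Hom T' → Prop} (h : Loc T P) :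
    (↑T.w⁻¹ : T.K) ∉ T.C → ∃ T' f, P T' f ∧ (↑T'.w⁻¹ : T'.K) ∉ T'.C := by
  induction h with
  | here h => exact fun h0 => ⟨_, _, h, h0⟩
  | @pure T P D _ _ hD _ ih =>
    intro h0
    obtain ⟨T', f, ψ, h1, h2, h3, -⟩ := val T (algebraMap T.C D) fun a d e => by
      let I : Ideal T.C := Ideal.span {⟨_, T.w_mem⟩ ^ (a + 1)}
      have := hD (T.C ⧸ I) (Ideal.Quotient.mk I (⟨_, T.w_mem⟩ ^ a)) (by
        rw [← mul_one (_ ^ a), ← smul_eq_mul, ← Ideal.Quotient.mkₐ_eq_mk T.C, map_smul, ← smul_tmul,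
          Algebra.smul_def, mul_one, map_pow,
          show algebraMap T.C D ⟨_, T.w_mem⟩ ^ a = ((⟨_, T.w_mem⟩ : T.C) ^ (a + 1)) • d by
            rw [Algebra.smul_def, map_pow]; linear_combination e,
          smul_tmul, ← map_smul, smul_eq_mul, mul_one, Ideal.Quotient.mkₐ_eq_mk,
          Ideal.Quotient.eq_zero_iff_mem.2 (Ideal.mem_span_singleton_self _), tmul_zero])
      obtain ⟨c, hc⟩ := Ideal.mem_span_singleton'.1 (Ideal.Quotient.eq_zero_iff_mem.1 this)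
      exact ne T h0 a c (by linear_combination -hc)
    obtain ⟨T'', g, h⟩ := ih T' f ψ h1 h2 h3
    exact ⟨T'', g.comp f, h⟩
  | @bl T P a b _ _ _ ih =>
    intro h0
    obtain ⟨T', f, -, -, -, h3, h4⟩ := val T (RingHom.id T.C) (ne T h0)
    obtain ⟨T'', g, h⟩ := ih T' f (h4 _ _) h3
    exact ⟨T'', g.comp f, h⟩

end Nt

theorem nt : NT p := fun _ h => by_contra fun h0 =>
  let ⟨_, _, h1, h2⟩ := Nt.leaf h h0
  h2 h1

end P261.B7
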