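import Vale.Agent.P261Z.B7.Step
import Vale.Agent.P261Z.B7.Nf6
import Vale.Agent.P261Z.B7.Nt
import Vale.Agent.P261Z.B7.Nont
import Vale.Agent.P261Z.B7.Mod
import Vale.Agent.P261Z.B7.Bon

/-!
# P261Z, block B: the local existence of lattices from the Igusa structure
-/

namespace P261.B7

variable {p : ℕ} [hp : Fact p.Prime]

theorem exl (hI : IGU p) : EXL p :=
  exl_of mod bon (nf6_of hI nt nont ff1 rig)

end P261.B7
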