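import Vale.Agent.P261Z.B7.Defs

/-!
# P261Z, block B: basic facts on covers, integral and bounded matrices
-/

open Matrix

noncomputable section

namespace P261.B7

variable {p : ℕ} [hp : Fact p.Prime]

/-! ### covers -/

theorem Loc.bind {T : Tri p} {P : (T' : Tri p) → T.Hom T' → Prop} (h : Loc T P) :
    ∀ {Q : (T' : Tri p) → T.Hom T' → Prop},
      (∀ T' f, P T' f → Loc T' fun T'' g => Q T'' (g.comp f)) → Loc T Q := by
  induction h with
  | here h => exact fun hq => hq _ _ h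
  | pure D hD _ ih =>
    exact fun hq => .pure D hD fun T' f ψ h1 h2 =>
      ih T' f ψ h1 h2 fun T'' g h => hq T'' (g.comp f) h
  | bl a b ha hb _ ih =>
    exact fun hq => .bl a b ha hb fun T' f h1 => ih T' f h1 fun T'' g h => hq T'' (g.comp f) h

theorem Loc.mono {T : Tri p} {P Q : (T' : Tri p) → T.Hom T' → Prop} (h : Loc T P)
    (hq : ∀ T' f, P T' f → Q T' f) : Loc T Q :=
  h.bind fun T' f h => .here (hq T' f h)

/-- finitely many hereditary properties -/
theorem Loc.all {ι : Type} [Finite ι] {T : Tri p} (Q : ι → (T' : Tri p) → T.Hom T' → Prop)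
    (h1 : ∀ i T' f T'' (g : T'.Hom T''), Q i T' f → Q i T'' (g.comp f))
    (h2 : ∀ i T' (f : T.Hom T'), Loc T' fun T'' g => Q i T'' (g.comp f)) :
    Loc T fun T' f => ∀ i, Q i T' f := by
  classical
  have := Fintype.ofFinite ι
  have key : ∀ s : Finset ι, Loc T fun T' f => ∀ i ∈ s, Q i T' f := fun s => by
    induction s using Finset.induction_on with
    | empty => exact .here (by simp)
    | insert a s _ ih =>
      exact ih.bind fun T' f h => (h2 a T' f).mono fun T'' g h' i hi =>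
        (Finset.mem_insert.1 hi).elim (fun e => e ▸ h') fun hi => h1 i T' f T'' g (h i hi)
  exact (key Finset.univ).mono fun _ _ h i => h i (Finset.mem_univ i)

theorem maxd : MAXD p := by
  intro ι _ _ T c hc
  classical
  have key : ∀ s : Finset ι, Loc T fun T' f =>
      ∃ i₀, ∀ i ∈ s, ∃ t ∈ T'.C, f.f (c i) = f.f (c i₀) * t := fun s => by
    induction s using Finset.induction_on with
    | empty => exact .here ⟨Classical.arbitrary ι, by simp⟩
    | insert a s _ ih =>
      refine ih.bind fun T' f ⟨i₀, h⟩ => .bl (f.f (c a)) (f.f (c i₀)) (f.mem _ (hc a))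
        (f.mem _ (hc i₀)) fun T'' g ⟨t, ht, e⟩ => .here ?_
      have h' : ∀ i ∈ s, ∃ t ∈ T''.C, g.f (f.f (c i)) = g.f (f.f (c i₀)) * t := fun i hi =>
        let ⟨u, hu, e⟩ := h i hi; ⟨g.f u, g.mem _ hu, by rw [e, map_mul]⟩
      rcases e with e | e
      · exact ⟨i₀, fun i hi => (Finset.mem_insert.1 hi).elim (fun e' => e' ▸ ⟨t, ht, e⟩) (h' i)⟩
      · refine ⟨a, fun i hi => (Finset.mem_insert.1 hi).elim
          (fun e' => e' ▸ ⟨1, one_mem _, (mul_one _).symm⟩) fun hi => ?_⟩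
        obtain ⟨u, hu, e'⟩ := h' i hi
        exact ⟨t * u, mul_mem ht hu, e'.trans (by rw [e, mul_assoc]; rfl)⟩
  exact (key Finset.univ).mono fun _ _ ⟨i₀, h⟩ => ⟨i₀, fun i => h i (Finset.mem_univ i)⟩

/-! ### entries -/

section ent

variable {R R' : Type} [CommRing R] [CommRing R'] {S : Subring R} {ι κ μ ν : Type}

theorem Ent.zero : Ent S (0 : Matrix ι κ R) := fun _ _ => zero_mem S

theorem Ent.one [DecidableEq ι] : Ent S (1 : Matrix ι ι R) := fun i j => by
  rw [one_apply]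
  split_ifs
  exacts [one_mem S, zero_mem S]

theorem Ent.add {A B : Matrix ι κ R} (h : Ent S A) (h' : Ent S B) : Ent S (A + B) :=
  fun i j => add_mem (h i j) (h' i j)

theorem Ent.sub {A B : Matrix ι κ R} (h : Ent S A) (h' : Ent S B) : Ent S (A - B) :=
  fun i j => sub_mem (h i j) (h' i j)

theorem Ent.neg {A : Matrix ι κ R} (h : Ent S A) : Ent S (-A) := fun i j => neg_mem (h i j)

theorem Ent.smul {A : Matrix ι κ R} (h : Ent S A) {a : R} (ha : a ∈ S) : Ent S (a • A) :=
  fun i j => mul_mem ha (h i j)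

theorem Ent.mul [Fintype κ] {A : Matrix ι κ R} {B : Matrix κ μ R} (h : Ent S A) (h' : Ent S B) :
    Ent S (A * B) := fun i j => sum_mem fun l _ => mul_mem (h i l) (h' l j)

theorem Ent.mono {S' : Subring R} {A : Matrix ι κ R} (h : Ent S A) (hS : S ≤ S') : Ent S' A :=
  fun i j => hS (h i j)

theorem Ent.map {S' : Subring R'} {A : Matrix ι κ R} (h : Ent S A) {f : R → R'}
    (hf : ∀ y ∈ S, f y ∈ S') : Ent S' (A.map f) := fun i j => hf _ (h i j)

theorem Ent.sub' {A : Matrix ι κ R} (h : Ent S A) (e : μ → ι) (e' : ν → κ) :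
    Ent S (A.submatrix e e') := fun _ _ => h _ _

theorem Ent.blocks {A : Matrix ι μ R} {B : Matrix ι ν R} {C : Matrix κ μ R} {D : Matrix κ ν R}
    (hA : Ent S A) (hB : Ent S B) (hC : Ent S C) (hD : Ent S D) : Ent S (fromBlocks A B C D) := by
  rintro (i | i) (j | j)
  exacts [hA i j, hB i j, hC i j, hD i j]

theorem Ent.det [Fintype ι] [DecidableEq ι] {A : Matrix ι ι R} (h : Ent S A) : A.det ∈ S := by
  rw [det_apply']
  exact sum_mem fun σ _ => mul_mem (intCast_mem S _) (prod_mem fun i _ => h _ _)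

theorem Ent.adjugate [Fintype ι] [DecidableEq ι] {A : Matrix ι ι R} (h : Ent S A) :
    Ent S A.adjugate := fun i j => by
  rw [adjugate_apply]
  refine Ent.det fun k l => ?_
  rw [updateRow_apply]
  split_ifs
  · rw [Pi.single_apply]
    split_ifs
    exacts [one_mem S, zero_mem S]
  · exact h k l

end ent

/-! ### integral and bounded Witt vectors -/

section ring

variable {K L : Type} [CommRing K] [CommRing L] {C : Subring K} {C' : Subring L}
  {x : WittVector p K}

theorem WI.map {φ : K →+* L} (h : ∀ y ∈ C, φ y ∈ C') (hx : x ∈ WI p C) : wm p φ x ∈ WI p C' :=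
  mem_wsub.2 fun j => h _ (mem_wsub.1 hx j)

theorem wm_tm (φ : K →+* L) (a : K) : wm p φ (tm p a) = tm p (φ a) :=
  WittVector.map_teichmuller p φ a

theorem WI.le_Bd : WI p C ≤ Bd p C := fun _ h => ⟨1, one_mem _, by simpa using h⟩

theorem Bd.map {φ : K →+* L} (h : ∀ y ∈ C, φ y ∈ C') (hx : x ∈ Bd p C) : wm p φ x ∈ Bd p C' :=
  let ⟨t, ht, e⟩ := hx
  ⟨Units.map φ.toMonoidHom t, h _ ht, by
    have := WI.map h e
    rwa [map_mul, wm_tm] at this⟩

theorem tm_inv_mem {t : Kˣ} (ht : (t : K) ∈ C) : tm p (↑t⁻¹ : K) ∈ Bd p C :=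
  ⟨t, ht, by rw [← tm_mul, t.mul_inv, tm_one]; exact one_mem _⟩

theorem Bd.of_tm {t : Kˣ} (ht : (t : K) ∈ C) (h : tm p (t : K) * x ∈ Bd p C) : x ∈ Bd p C := by
  have := mul_mem (tm_inv_mem (p := p) ht) h
  rwa [← mul_assoc, ← tm_mul, t.inv_mul, tm_one, one_mul] at this

/-- a common denominator -/
theorem Ent.den {ι κ : Type} [Finite ι] [Finite κ] {A : Matrix ι κ (WittVector p K)}
    (h : Ent (Bd p C) A) : ∃ t : Kˣ, (t : K) ∈ C ∧ Ent (WI p C) (tm p (t : K) • A) := by
  classical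
  have := Fintype.ofFinite (ι × κ)
  choose t h1 h2 using h
  refine ⟨∏ q : ι × κ, t q.1 q.2, ?_, fun i j => ?_⟩
  · rw [Units.coe_prod]
    exact prod_mem fun q _ => h1 _ _
  · rw [← Finset.prod_erase_mul _ _ (Finset.mem_univ (i, j)), Units.val_mul, tm_mul, Matrix.smul_apply,
      smul_eq_mul, mul_assoc, Units.coe_prod]
    exact mul_mem (tm_mem (prod_mem fun q _ => h1 _ _)) (h2 i j)

end ring

namespace Tri

variable (T : Tri p) {x : WittVector p T.K}

theorem rt_pow_mem (k : ℕ) {y : T.K} (h : y ∈ T.C) : (rt p T.K ^ k) y ∈ T.C := by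
  induction k with
  | zero => exact h
  | succ k ih => rw [pow_succ']; exact T.rt_mem _ ih

theorem of_pow {y : T.K} (h : y ^ p ∈ T.C) : y ∈ T.C := rt_pow' (p := p) y ▸ T.rt_mem _ h

theorem si_mem (h : x ∈ WI p T.C) : si p T.K x ∈ WI p T.C := WI.map T.rt_mem h

theorem si_mem' (h : x ∈ Bd p T.C) : si p T.K x ∈ Bd p T.C := Bd.map T.rt_mem h

theorem si_pow_mem' (k : ℕ) (h : x ∈ Bd p T.C) : (si p T.K ^ k) x ∈ Bd p T.C := by
  induction k with
  | zero => exact h
  | succ k ih => rw [pow_succ']; exact T.si_mem' ih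

theorem of_p_mul (h : (p : WittVector p T.K) * x ∈ WI p T.C) : x ∈ WI p T.C :=
  mem_wsub.2 fun j => T.of_pow (by simpa using mem_wsub.1 h (j + 1))

theorem of_pow_mul (k : ℕ) (h : (p : WittVector p T.K) ^ k * x ∈ WI p T.C) : x ∈ WI p T.C := by
  induction k with
  | zero => simpa using h
  | succ k ih => exact ih (T.of_p_mul (by rwa [← mul_assoc, ← pow_succ']))

theorem dv_mem (h : x ∈ WI p T.C) : dv x ∈ WI p T.C :=
  mem_wsub.2 fun j => T.rt_mem _ (mem_wsub.1 h (j + 1))

theorem of_p_mul' (h : (p : WittVector p T.K) * x ∈ Bd p T.C) : x ∈ Bd p T.C :=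
  let ⟨t, ht, e⟩ := h
  ⟨t, ht, T.of_p_mul (by rwa [mul_left_comm])⟩

theorem tm_mem' (y : T.K) : tm p y ∈ Bd p T.C :=
  let ⟨N, h⟩ := T.exh y
  ⟨T.w ^ N, by simpa using pow_mem T.w_mem N, by
    rw [← tm_mul, Units.val_pow_eq_pow_val]; exact tm_mem h⟩

theorem dv_mem' (h : x ∈ Bd p T.C) : dv x ∈ Bd p T.C :=
  T.of_p_mul' (by
    rw [eq_sub_of_add_eq' (tm_add_dv x)]
    exact sub_mem h (T.tm_mem' _))

/-- saturation for every unit in `C` -/
theorem sat' {t : T.Kˣ} {y : T.K} (h : ∀ k : ℕ, (rt p T.K ^ k) (t : T.K) * y ∈ T.C) : y ∈ T.C := by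
  obtain ⟨N, hN⟩ := T.exh (↑t⁻¹ : T.K)
  refine T.sat y fun m => ?_
  obtain ⟨d, hd⟩ := Nat.exists_eq_add_of_le (Nat.lt_pow_self (n := N) (one_lt_p (p := p))).le
  have e1 : (rt p T.K ^ m) (T.w : T.K) = (rt p T.K ^ (m + N)) (T.w : T.K) ^ p ^ N := by
    rw [← map_pow, pow_add, RingHom.mul_def, RingHom.comp_apply, rt_pow_pp']
  have e2 : (T.w : T.K) ^ N = (T.w : T.K) ^ N * (↑t⁻¹ : T.K) * t := by
    rw [mul_assoc, t.inv_mul, mul_one]
  rw [e1, hd, pow_add, ← map_pow, e2, map_mul, mul_right_comm _ _ (_ ^ d), mul_assoc]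
  exact mul_mem (mul_mem (T.rt_pow_mem _ hN) (pow_mem (T.rt_pow_mem _ T.w_mem) d)) (h _)

theorem satW {t : T.Kˣ} (h : ∀ k : ℕ, tm p ((rt p T.K ^ k) (t : T.K)) * x ∈ WI p T.C) :
    x ∈ WI p T.C := mem_wsub.2 fun j => T.sat' (t := t ^ p ^ j) fun k => by
  have := mem_wsub.1 (h k) j
  rwa [coeff_tm_mul, ← map_pow, ← Units.val_pow_eq_pow_val] at this

/-- contraction: a bounded matrix whose pole can always be divided by `p` is integral -/
theorem contr {ι κ : Type} [Finite ι] [Finite κ] {A : Matrix ι κ (WittVector p T.K)}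
    (h : Ent (Bd p T.C) A) (hc : ∀ t : T.K, t ∈ T.C → Ent (WI p T.C) (tm p t • A) →
      Ent (WI p T.C) (tm p (rt p T.K t) • A)) : Ent (WI p T.C) A := by
  obtain ⟨t, ht, e⟩ := h.den
  have key : ∀ k : ℕ, Ent (WI p T.C) (tm p ((rt p T.K ^ k) (t : T.K)) • A) := fun k => by
    induction k with
    | zero => exact e
    | succ k ih => rw [pow_succ']; exact hc _ (T.rt_pow_mem k ht) ih
  exact fun i j => T.satW fun k => key k i j

/-- `σ⁻¹` divides the pole by `p` -/
theorem si_ent {ι κ : Type} {A : Matrix ι κ (WittVector p T.K)} {t : T.K}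
    (h : Ent (WI p T.C) (tm p t • A)) :
    Ent (WI p T.C) (tm p (rt p T.K t) • A.map (si p T.K)) := fun i j => by
  have := T.si_mem (h i j)
  rwa [Matrix.smul_apply, smul_eq_mul, map_mul, si_tm] at this

/-- a root divides the element -/
theorem rt_dvd {t : T.K} (h : t ∈ T.C) (k : ℕ) : ∃ c ∈ T.C, t = (rt p T.K ^ k) t * c :=
  ⟨(rt p T.K ^ k) t ^ (p ^ k - 1), pow_mem (T.rt_pow_mem k h) _, by
    rw [← pow_succ', Nat.sub_add_cancel (Nat.one_le_pow _ _ hp.out.pos), rt_pow_pp]⟩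

end Tri

/-! ### isomorphisms and lattices -/

section iso

variable {K L : Type} [CommRing K] [CommRing L] [Pf p K] [Pf p L] {C : Subring K}
  {C' : Subring L} {ι κ μ : Type} [Fintype ι] [Fintype κ] [Fintype μ] [DecidableEq ι]
  [DecidableEq κ] [DecidableEq μ] {A : Matrix ι ι (WittVector p K)}
  {A' : Matrix κ κ (WittVector p K)} {A'' : Matrix μ μ (WittVector p K)}

omit [Fintype ι] in
theorem map_one' {R R' : Type} [CommRing R] [CommRing R'] (f : R →+* R') :
    (1 : Matrix ι ι R).map f = 1 := Matrix.map_one _ (map_zero f) (map_one f)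

theorem Iso.refl : Iso C A A :=
  ⟨1, 1, .one, .one, Matrix.one_mul _, Matrix.one_mul _, by
    rw [map_one', Matrix.mul_one, Matrix.one_mul]⟩

theorem Iso.trans (h : Iso C A A') (h' : Iso C A' A'') : Iso C A A'' := by
  obtain ⟨g, g', a1, a2, a3, a4, a5⟩ := h
  obtain ⟨k, k', b1, b2, b3, b4, b5⟩ := h'
  refine ⟨k * g, g' * k', b1.mul a1, a2.mul b2, ?_, ?_, ?_⟩
  · rw [Matrix.mul_assoc, ← Matrix.mul_assoc g, a3, Matrix.one_mul, b3]
  · rw [Matrix.mul_assoc, ← Matrix.mul_assoc k', b4, Matrix.one_mul, a4]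
  · rw [Matrix.map_mul, ← Matrix.mul_assoc, b5, Matrix.mul_assoc, a5, Matrix.mul_assoc]

/-- the equation for the inverse -/
theorem inv_eq {g : Matrix κ ι (WittVector p K)} {g' : Matrix ι κ (WittVector p K)}
    (a3 : g * g' = 1) (a4 : g' * g = 1) (a5 : A' * g.map (si p K) = g * A) :
    A * g'.map (si p K) = g' * A' := by
  have e : g.map (si p K) * g'.map (si p K) = 1 := by rw [← Matrix.map_mul, a3, map_one']
  calc A * g'.map (si p K) = g' * (g * A) * g'.map (si p K) := by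
        rw [← Matrix.mul_assoc, a4, Matrix.one_mul]
    _ = g' * A' := by rw [← a5, Matrix.mul_assoc, Matrix.mul_assoc, e, Matrix.mul_one]

theorem Iso.symm (h : Iso C A A') : Iso C A' A :=
  let ⟨g, g', a1, a2, a3, a4, a5⟩ := h
  ⟨g', g, a2, a1, a4, a3, inv_eq a3 a4 a5⟩

theorem Iso.map {φ : K →+* L} (hφ : ∀ y ∈ C, φ y ∈ C') (h : Iso C A A') :
    Iso C' (A.map (wm p φ)) (A'.map (wm p φ)) := by
  obtain ⟨g, g', a1, a2, a3, a4, a5⟩ := h
  refine ⟨g.map (wm p φ), g'.map (wm p φ), a1.map fun _ => Bd.map hφ, a2.map fun _ => Bd.map hφ,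
    by rw [← Matrix.map_mul, a3, map_one'], by rw [← Matrix.map_mul, a4, map_one'], ?_⟩
  rw [← Matrix.map_mul, ← a5, Matrix.map_mul]
  congr 1
  ext i j : 1
  exact (wm_si φ _).symm

theorem Iso.reindex (A : Matrix ι ι (WittVector p K)) (e : κ ≃ ι) : Iso C A (A.submatrix e e) := by
  refine ⟨(1 : Matrix ι ι _).submatrix e id, (1 : Matrix ι ι _).submatrix id e, Ent.one.sub' _ _,
    Ent.one.sub' _ _, ?_, ?_, ?_⟩
  · rw [← submatrix_mul _ _ _ _ _ Function.bijective_id, Matrix.one_mul, submatrix_one_equiv]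
  · rw [submatrix_mul_equiv, Matrix.one_mul, submatrix_id_id]
  · rw [← submatrix_map, map_one', submatrix_mul_equiv, Matrix.mul_one]
    conv_rhs => rw [← submatrix_id_id A, ← submatrix_mul _ _ _ _ _ Function.bijective_id,
      Matrix.one_mul]

omit [Pf p K] in
theorem Dieu.reindex (h : Dieu C A) (e : κ ≃ ι) : Dieu C (A.submatrix e e) := by
  obtain ⟨a1, B, a2, a3, a4⟩ := h
  refine ⟨a1.sub' _ _, B.submatrix e e, a2.sub' _ _, ?_, ?_⟩ <;>
    simp only [submatrix_mul_equiv, a3, a4, submatrix_smul, Pi.smul_apply, submatrix_one_equiv]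

omit [Pf p K] [Pf p L] in
theorem Dieu.map {φ : K →+* L} (hφ : ∀ y ∈ C, φ y ∈ C') (h : Dieu C A) :
    Dieu C' (A.map (wm p φ)) := by
  obtain ⟨a1, B, a2, a3, a4⟩ := h
  have e : ((p : WittVector p K) • (1 : Matrix ι ι (WittVector p K))).map (wm p φ) =
      (p : WittVector p L) • (1 : Matrix ι ι (WittVector p L)) := by
    ext i j : 1
    simp only [map_apply, Matrix.smul_apply, one_apply, smul_eq_mul, map_mul, map_natCast]
    split_ifs <;> simp
  exact ⟨a1.map fun _ => WI.map hφ, B.map (wm p φ), a2.map fun _ => WI.map hφ,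
    by rw [← Matrix.map_mul, a3, e], by rw [← Matrix.map_mul, a4, e]⟩

theorem Dieu.lat (h : Dieu C A) : Lat C A := ⟨A, h, .refl⟩

theorem Lat.of_iso (e : ι ≃ κ) (h : Iso C A A') (h' : Lat C A') : Lat C A :=
  let ⟨B, b1, b2⟩ := h'
  ⟨B.submatrix e e, b1.reindex e, h.trans (b2.trans (.reindex B e))⟩

theorem Lat.map {φ : K →+* L} (hφ : ∀ y ∈ C, φ y ∈ C') (h : Lat C A) :
    Lat C' (A.map (wm p φ)) :=
  let ⟨_, b1, b2⟩ := h
  ⟨_, b1.map hφ, b2.map hφ⟩

end iso

/-! ### the standard matrix -/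

section std

variable {K L : Type} [CommRing K] [CommRing L] {C : Subring K} {h : ℕ}

variable (p K) in
/-- the matrix `p / Hm` -/
def Hm' (h : ℕ) : Matrix (Fin (h + 1)) (Fin (h + 1)) (WittVector p K) :=
  Matrix.of fun i j => if j = i + 1 then (if i = Fin.last h then 1 else (p : WittVector p K)) else 0

theorem Hm_ent : Ent (WI p C) (Hm p K h) := fun i j => by
  simp only [Hm, of_apply]
  split_ifs
  exacts [natCast_mem _ _, one_mem _, zero_mem _]

theorem Hm'_ent : Ent (WI p C) (Hm' p K h) := fun i j => by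
  simp only [Hm', of_apply]
  split_ifs
  exacts [one_mem _, natCast_mem _ _, zero_mem _]

theorem Hm'_mul : Hm' p K h * Hm p K h =
    (p : WittVector p K) • (1 : Matrix (Fin (h + 1)) (Fin (h + 1)) (WittVector p K)) := by
  ext i j : 1
  simp only [Hm, Hm', mul_apply, of_apply, ite_mul, zero_mul, Finset.sum_ite_eq',
    Finset.mem_univ, if_true, add_left_inj, Matrix.smul_apply, one_apply, smul_eq_mul]
  by_cases e : i = j
  · subst e
    split_ifs <;> simp_all
  · simp [e]

theorem Hm_mul : Hm p K h * Hm' p K h =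
    (p : WittVector p K) • (1 : Matrix (Fin (h + 1)) (Fin (h + 1)) (WittVector p K)) := by
  ext i j : 1
  obtain ⟨i, rfl⟩ := (Equiv.addRight (1 : Fin (h + 1))).surjective i
  obtain ⟨j, rfl⟩ := (Equiv.addRight (1 : Fin (h + 1))).surjective j
  simp only [Hm, Hm', mul_apply, of_apply, ite_mul, zero_mul, Equiv.coe_addRight, add_left_inj,
    Finset.sum_ite_eq, Finset.mem_univ, if_true, Matrix.smul_apply, one_apply, smul_eq_mul]
  by_cases e : i = j
  · subst e
    split_ifs <;> simp_all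
  · simp [e, Ne.symm e]

theorem Hm_dieu : Dieu C (Hm p K h) := ⟨Hm_ent, _, Hm'_ent, Hm_mul, Hm'_mul⟩

theorem det_Hm : ∃ d ∈ WI p C, (Hm p K h).det = p * d := by
  let Q : Matrix (Fin (h + 1)) (Fin (h + 1)) (WittVector p K) :=
    Matrix.of fun i j => if i = j + 1 then 1 else 0
  refine ⟨Q.det, Ent.det fun i j => ?_, ?_⟩
  · simp only [Q, of_apply]
    split_ifs
    exacts [one_mem _, zero_mem _]
  have e : Hm p K h = Q * diagonal fun j => if j = Fin.last h then (p : WittVector p K) else 1 := by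
    ext i j : 1
    simp only [Hm, Q, mul_diagonal, of_apply, ite_mul, one_mul, zero_mul]
  rw [e, det_mul, det_diagonal, Finset.prod_ite_eq', if_pos (Finset.mem_univ _), mul_comm]

theorem Hm_map (φ : WittVector p K →+* WittVector p L) : (Hm p K h).map φ = Hm p L h := by
  ext i j : 1
  simp only [Hm, map_apply, of_apply]
  split_ifs <;> simp

theorem lcol_map {ι : Type} (φ : WittVector p K →+* WittVector p L) (x : ι → WittVector p K) :
    (lcol h x).map φ = lcol h fun i => φ (x i) := by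
  ext i j : 1
  simp only [lcol, map_apply, of_apply]
  split_ifs <;> simp

theorem blocks_map {ι κ : Type} [DecidableEq ι] (φ : WittVector p K →+* WittVector p L)
    (ξ : Matrix ι κ (WittVector p K)) (A : Matrix κ κ (WittVector p K)) :
    (fromBlocks (1 : Matrix ι ι _) ξ 0 A).map φ = fromBlocks 1 (ξ.map φ) 0 (A.map φ) := by
  rw [fromBlocks_map, Matrix.map_one _ (map_zero φ) (map_one φ), Matrix.map_zero _ (map_zero φ)]

theorem Nx_map {ι : Type} [DecidableEq ι] (φ : WittVector p K →+* WittVector p L)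
    (x : ι → WittVector p K) : (Nx h x).map φ = Nx h fun i => φ (x i) := by
  rw [Nx, blocks_map, lcol_map, Hm_map, Nx]

theorem A1_map (φ : K →+* L) (u : K) : (A1 p h u).map (wm p φ) = A1 p h (φ u) := by
  rw [A1, Matrix.map_sub _ (map_sub _), Hm_map, Matrix.map_single, wm_tm, A1]

theorem lcol_ent {ι : Type} {S : Subring (WittVector p K)} {x : ι → WittVector p K}
    (hx : ∀ i, x i ∈ S) : Ent S (lcol h x) := fun i j => by
  simp only [lcol, of_apply]
  split_ifs
  exacts [hx i, zero_mem _]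

/-- the product of a row with the standard matrix -/
theorem mul_Hm {ι : Type} (a : Matrix ι (Fin (h + 1)) (WittVector p K)) (i : ι) (j : Fin (h + 1)) :
    (a * Hm p K h) i j = a i (j + 1) * if j = Fin.last h then (p : WittVector p K) else 1 := by
  simp [Hm, mul_apply]

end std

end P261.B7
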