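import Vale.Agent.P261Z.W.Fil

/-!
# P261Z, block B: saturated pairs, covers, lattices; statements
-/

open Matrix TensorProduct

noncomputable section

namespace P261.B7

variable {p : ℕ} [hp : Fact p.Prime]

/-- a perfect ring `K = C[1/w]` with a saturated subring `C` -/
structure Tri (p : ℕ) [Fact p.Prime] : Type 1 where
  /-- the ring -/
  K : Type
  [ring : CommRing K]
  [pf : Pf p K]
  /-- the integral elements -/
  C : Subring K
  /-- the pseudo uniformiser -/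
  w : Kˣ
  w_mem : (w : K) ∈ C
  rt_mem : ∀ y ∈ C, rt p K y ∈ C
  exh : ∀ y : K, ∃ N : ℕ, (w : K) ^ N * y ∈ C
  sat : ∀ y : K, (∀ k : ℕ, (rt p K ^ k) (w : K) * y ∈ C) → y ∈ C

attribute [instance] Tri.ring Tri.pf

/-- morphisms -/
structure Tri.Hom (T T' : Tri p) where
  /-- the ring map -/
  f : T.K →+* T'.K
  mem : ∀ y ∈ T.C, f y ∈ T'.C
  map_w : f (T.w : T.K) = T'.w

/-- the identity -/
def Tri.Hom.id (T : Tri p) : T.Hom T := ⟨RingHom.id _, fun _ h => h, rfl⟩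

/-- composition -/
def Tri.Hom.comp {T T' T'' : Tri p} (g : T'.Hom T'') (f : T.Hom T') : T.Hom T'' :=
  ⟨g.f.comp f.f, fun y h => g.mem _ (f.mem y h), by rw [RingHom.comp_apply, f.map_w, g.map_w]⟩

/-- `P` holds after finitely many pure covers and blow ups -/
inductive Loc : (T : Tri p) → ((T' : Tri p) → T.Hom T' → Prop) → Prop
  | here {T : Tri p} {P : (T' : Tri p) → T.Hom T' → Prop} : P T (.id T) → Loc T P
  | pure {T : Tri p} {P : (T' : Tri p) → T.Hom T' → Prop} (D : Type) [CommRing D] [Algebra T.C D]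
      (hD : ∀ (M : Type) [AddCommGroup M] [Module T.C M] (x : M), (1 : D) ⊗ₜ[T.C] x = 0 → x = 0) :
      (∀ (T' : Tri p) (f : T.Hom T') (ψ : D →+* T'.K), (∀ d, ψ d ∈ T'.C) →
        (∀ c : T.C, ψ (algebraMap T.C D c) = f.f c) → Loc T' fun T'' g => P T'' (g.comp f)) →
      Loc T P
  | bl {T : Tri p} {P : (T' : Tri p) → T.Hom T' → Prop} (a b : T.K) (ha : a ∈ T.C)
      (hb : b ∈ T.C) :
      (∀ (T' : Tri p) (f : T.Hom T'), (∃ t ∈ T'.C, f.f a = f.f b * t ∨ f.f b = f.f a * t) →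
        Loc T' fun T'' g => P T'' (g.comp f)) → Loc T P

/-- faithfully flat covers -/
theorem Loc.ff {T : Tri p} {P : (T' : Tri p) → T.Hom T' → Prop} (D : Type) [CommRing D]
    [Algebra T.C D] [Module.FaithfullyFlat T.C D]
    (h : ∀ (T' : Tri p) (f : T.Hom T') (ψ : D →+* T'.K), (∀ d, ψ d ∈ T'.C) →
      (∀ c : T.C, ψ (algebraMap T.C D c) = f.f c) → Loc T' fun T'' g => P T'' (g.comp f)) :
    Loc T P :=
  .pure D (fun _ _ _ x hx => (Module.FaithfullyFlat.one_tmul_eq_zero_iff T.C _ x).1 hx) h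

section ring

variable {K : Type} [CommRing K]

variable (p) in
/-- the Witt vectors with coefficients in `C` -/
abbrev WI (C : Subring K) : Subring (WittVector p K) := wsub C

theorem tm_mul (a b : K) : tm p (a * b) = tm p a * tm p b := map_mul (WittVector.teichmuller p) a b

theorem tm_one : tm p (1 : K) = 1 := map_one (WittVector.teichmuller p)

theorem tm_pow (a : K) (n : ℕ) : tm p (a ^ n) = tm p a ^ n := map_pow (WittVector.teichmuller p) a n

theorem tm_mem {C : Subring K} {a : K} (h : a ∈ C) : tm p a ∈ WI p C :=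
  ⟨tm p ⟨_, h⟩, WittVector.map_teichmuller p _ _⟩

variable (p) in
/-- the bounded Witt vectors -/
def Bd (C : Subring K) : Subring (WittVector p K) where
  carrier := {y | ∃ t : Kˣ, (t : K) ∈ C ∧ tm p (t : K) * y ∈ WI p C}
  mul_mem' := by
    rintro x y ⟨s, hs, hx⟩ ⟨t, ht, hy⟩
    refine ⟨s * t, C.mul_mem hs ht, ?_⟩
    rw [Units.val_mul, tm_mul, mul_mul_mul_comm]
    exact mul_mem hx hy
  one_mem' := ⟨1, C.one_mem, by simp⟩
  add_mem' := by
    rintro x y ⟨s, hs, hx⟩ ⟨t, ht, hy⟩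
    refine ⟨s * t, C.mul_mem hs ht, ?_⟩
    rw [Units.val_mul, tm_mul, show tm p (s : K) * tm p (t : K) * (x + y) =
      tm p (t : K) * (tm p (s : K) * x) + tm p (s : K) * (tm p (t : K) * y) by ring]
    exact add_mem (mul_mem (tm_mem ht) hx) (mul_mem (tm_mem hs) hy)
  zero_mem' := ⟨1, C.one_mem, by simp⟩
  neg_mem' := by
    rintro x ⟨s, hs, hx⟩
    exact ⟨s, hs, by rw [mul_neg]; exact neg_mem hx⟩

variable {ι κ : Type}

/-- all entries lie in `S` -/
def Ent {R : Type} [CommRing R] (S : Subring R) (A : Matrix ι κ R) : Prop := ∀ i j, A i j ∈ S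

variable [Fintype ι] [Fintype κ] [DecidableEq ι] [DecidableEq κ]

/-- `A` is the matrix of `V` on a lattice: `A` and `p A⁻¹` are integral -/
def Dieu (C : Subring K) (A : Matrix ι ι (WittVector p K)) : Prop := Ent (WI p C) A ∧
  ∃ B, Ent (WI p C) B ∧ A * B = (p : WittVector p K) • (1 : Matrix ι ι (WittVector p K)) ∧
    B * A = (p : WittVector p K) • (1 : Matrix ι ι (WittVector p K))

/-- a bounded isomorphism from `v ↦ A * σ⁻¹ v` to `v ↦ A' * σ⁻¹ v` -/
def Iso [Pf p K] (C : Subring K) (A : Matrix ι ι (WittVector p K))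
    (A' : Matrix κ κ (WittVector p K)) : Prop :=
  ∃ (g : Matrix κ ι (WittVector p K)) (g' : Matrix ι κ (WittVector p K)),
    Ent (Bd p C) g ∧ Ent (Bd p C) g' ∧ g * g' = 1 ∧ g' * g = 1 ∧ A' * g.map (si p K) = g * A

/-- there is a lattice -/
def Lat [Pf p K] (C : Subring K) (A : Matrix ι ι (WittVector p K)) : Prop :=
  ∃ A' : Matrix ι ι (WittVector p K), Dieu C A' ∧ Iso C A A'

variable (p K) in
/-- the matrix of `V` on the basis `e, V e, …, V ^ h e`, where `V ^ (h + 1) e = p e` -/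
def Hm (h : ℕ) : Matrix (Fin (h + 1)) (Fin (h + 1)) (WittVector p K) :=
  Matrix.of fun i j => if i = j + 1 then (if j = Fin.last h then (p : WittVector p K) else 1) else 0

/-- the matrix with last column `x` -/
def lcol (h : ℕ) (x : ι → WittVector p K) : Matrix ι (Fin (h + 1)) (WittVector p K) :=
  Matrix.of fun i j => if j = Fin.last h then x i else 0

/-- `V ε = ε`, `V ^ (h + 1) e = p e + ∑ x i ε i` -/
def Nx (h : ℕ) (x : ι → WittVector p K) :
    Matrix (ι ⊕ Fin (h + 1)) (ι ⊕ Fin (h + 1)) (WittVector p K) :=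
  fromBlocks 1 (lcol h x) 0 (Hm p K h)

variable (p) in
/-- `p m = V ^ (h + 2) m + [u] V ^ (h + 1) m` -/
def A1 (h : ℕ) (u : K) : Matrix (Fin (h + 2)) (Fin (h + 2)) (WittVector p K) :=
  Hm p K (h + 1) - Matrix.single (Fin.last (h + 1)) (Fin.last (h + 1)) (tm p u)

end ring

variable (p)

/-! ### the exported statement -/

/-- lattices exist locally (the height of the connected part is `h + 1`) -/
def EXL : Prop := ∀ (h : ℕ) (ι : Type) [Fintype ι] [DecidableEq ι] (T : Tri p)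
  (x : ι → WittVector p T.K), (∀ i, x i ∈ Bd p T.C) →
  Loc T fun T' f => Lat T'.C (Nx h fun i => wm p f.f (x i))

/-! ### inputs from other blocks -/

/-- an Igusa structure on the normal form, with a bounded class -/
def IGU : Prop := ∀ (h : ℕ) (T : Tri p), Loc T fun T' _ =>
  ∃ x ∈ Bd p T'.C, Iso T'.C (Nx h fun _ : Unit => x) (A1 p h (T'.w : T'.K))

/-- the slice -/
def SLICE : Prop := ∀ (h : ℕ) (T : Tri p) (ω : T.K) (X : WittVector p T.K), ω ∈ T.C →
  X ∈ WI p T.C → Loc T fun T' f => ∃ Y ∈ T'.C, ∃ A ∈ WI p T'.C,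
    wm p f.f X = tm p Y + tm p (f.f ω) * (si p T'.K ^ (h + 1)) A - p * A

/-- covers are onto the special fibre -/
def NT : Prop := ∀ T : Tri p, (Loc T fun T' _ => (↑T'.w⁻¹ : T'.K) ∈ T'.C) → (↑T.w⁻¹ : T.K) ∈ T.C

/-! ### rows -/

/-- a pair with non empty special fibre -/
def NONT : Prop := ∃ T : Tri p, (↑T.w⁻¹ : T.K) ∉ T.C

/-- a pair with non empty special fibre covers a neighbourhood of `s = 0` -/
def FF1 : Prop := ∀ (T₀ : Tri p) (s₀ : T₀.Kˣ), (s₀ : T₀.K) ∈ T₀.C → (↑s₀⁻¹ : T₀.K) ∉ T₀.C →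
  (∀ y : T₀.K, ∃ N : ℕ, (s₀ : T₀.K) ^ N * y ∈ T₀.C) → ∀ (T : Tri p) (s : T.Kˣ), (s : T.K) ∈ T.C →
  Loc T fun T' f => f.f (↑s⁻¹ : T.K) ∈ T'.C ∨
    ∃ φ : T₀.K →+* T'.K, (∀ y ∈ T₀.C, φ y ∈ T'.C) ∧ φ (s₀ : T₀.K) = f.f (s : T.K)

/-- one element divides all the other ones -/
def MAXD : Prop := ∀ (ι : Type) [Fintype ι] [Nonempty ι] (T : Tri p) (c : ι → T.K),
  (∀ i, c i ∈ T.C) → Loc T fun T' f => ∃ i₀, ∀ i, ∃ t ∈ T'.C, f.f (c i) = f.f (c i₀) * t

/-- modification of a lattice along an étale quotient of length one -/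
def MOD : Prop := ∀ (ι : Type) [Fintype ι] [DecidableEq ι] (T : Tri p) (j : ι)
  (A A' : Matrix ι ι (WittVector p T.K)), A j j = 1 →
  A' * diagonal (Function.update 1 j (p : WittVector p T.K)) =
    diagonal (Function.update 1 j (p : WittVector p T.K)) * A →
  Lat T.C A' → Loc T fun T' f => Lat T'.C (A.map (wm p f.f))

/-- every bounded lattice has a universal bound -/
def BON : Prop := ∀ (h : ℕ) (ι κ : Type) [Fintype ι] [DecidableEq ι] [Fintype κ] [DecidableEq κ]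
  (T : Tri p) (s : T.Kˣ) (ξ : Matrix ι (Fin (h + 1)) (WittVector p T.K))
  (A' : Matrix κ κ (WittVector p T.K)) (g : Matrix κ (ι ⊕ Fin (h + 1)) (WittVector p T.K))
  (g' : Matrix (ι ⊕ Fin (h + 1)) κ (WittVector p T.K)), Nonempty (κ ≃ ι ⊕ Fin (h + 1)) →
  (s : T.K) ∈ T.C → Ent (WI p T.C) (tm p (s : T.K) • ξ) → Dieu T.C A' → Ent (Bd p T.C) g →
  Ent (Bd p T.C) g' → g * g' = 1 → g' * g = 1 →
  A' * g.map (si p T.K) = g * fromBlocks 1 ξ 0 (Hm p T.K h) →
  Ent (WI p T.C) (tm p (s : T.K) • g) ∧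
    Ent (WI p T.C) (tm p ((s : T.K) ^ Fintype.card κ) • g')

/-- an integral class forces ordinary reduction -/
def RIG : Prop := ∀ (h : ℕ) (T : Tri p) (x : WittVector p T.K) (u : T.Kˣ), x ∈ WI p T.C →
  (u : T.K) ∈ T.C → Iso T.C (Nx h fun _ : Unit => x) (A1 p h (u : T.K)) → (↑u⁻¹ : T.K) ∈ T.C

/-- the lattice for the class `[1 / s]` -/
def NF6 : Prop := ∀ h : ℕ, ∃ k : ℕ, ∀ (T : Tri p) (s : T.Kˣ), (s : T.K) ∈ T.C →
  Loc T fun T' f => f.f (↑s⁻¹ : T.K) ∈ T'.C ∨ ∃ u ∈ T'.C,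
    Iso T'.C (Nx h fun _ : Unit => tm p (f.f (↑s⁻¹ : T.K)))
      (A1 p h ((rt p T'.K ^ k) (f.f (s : T.K)) * u))

end P261.B7
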