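import Vale.Agent.P261Z.B7.FF1
import Vale.Agent.P261Z.B7.Basic
import Vale.Agent.P261Z.B.Contr
import Vale.Agent.P261Z.W.Aic

/-!
# P261Z, block B: bounded classes are locally Teichmueller representatives
-/

open TensorProduct Polynomial

noncomputable section

namespace P261.B7

variable {p : ℕ} [hp : Fact p.Prime]

namespace Sl

/-- purity by compactness -/
theorem pure_quot {C P : Type} [CommRing C] [CommRing P] [Algebra C P] (I : Ideal P)
    (h : ∀ s : Finset P, (∀ y ∈ s, y ∈ I) → ∃ (B : Type) (_ : CommRing B) (φ : P →+* B),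
      (∀ y ∈ s, φ y = 0) ∧ (φ.comp (algebraMap C P)).FaithfullyFlat)
    (M : Type) [AddCommGroup M] [Module C M] (x : M) (hx : (1 : P ⧸ I) ⊗ₜ[C] x = 0) : x = 0 := by
  classical
  obtain ⟨z, hz⟩ := (rTensor_exact M (f := (I.restrictScalars C).subtype)
    (g := (Ideal.Quotient.mkₐ C I).toLinearMap) (fun y => ⟨fun h => ⟨⟨y,
      Ideal.Quotient.eq_zero_iff_mem.1 h⟩, rfl⟩, fun ⟨z, e⟩ => e ▸
      Ideal.Quotient.eq_zero_iff_mem.2 z.2⟩) Ideal.Quotient.mk_surjective (1 ⊗ₜ x)).1 hx
  obtain ⟨S, rfl⟩ := TensorProduct.exists_finset z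
  obtain ⟨B, _, φ, h1, h2⟩ := h (S.image fun i => (i.1 : P)) fun y hy => by
    obtain ⟨i, -, rfl⟩ := Finset.mem_image.1 hy
    exact i.1.2
  let _ := (φ.comp (algebraMap C P)).toAlgebra
  have : Module.FaithfullyFlat C B := h2
  let φ' : P →ₐ[C] B := { φ with commutes' := fun _ => rfl }
  have e := congrArg (LinearMap.rTensor M φ'.toLinearMap) hz
  rw [map_sum, map_sum, Finset.sum_eq_zero fun i hi => ?_] at e
  · simpa using e.symm
  · show φ (i.1 : P) ⊗ₜ[C] i.2 = 0
    rw [h1 _ (Finset.mem_image_of_mem _ hi), zero_tmul]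

section ch

variable {R S : Type} [CommRing R] [Ch p R] [CommRing S] [Ch p S]

omit [Ch p R] in
theorem coeff_tm_V (a : R) (z : WittVector p R) (j : ℕ) : (tm p a + z.verschiebung).coeff j =
    (tm p a).coeff j + z.verschiebung.coeff j := by
  refine WittVector.coeff_add_of_disjoint j _ _ fun n => ?_
  cases n with
  | zero => exact Or.inr rfl
  | succ n => exact Or.inl (WittVector.teichmuller_coeff_pos p a _ n.succ_pos)

omit [Ch p R] in
theorem coeff_sub_zero (x y : WittVector p R) : (x - y).coeff 0 = x.coeff 0 - y.coeff 0 :=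
  map_sub (WittVector.constantCoeff : WittVector p R →+* R) x y

theorem coeff_top (J : ℕ) : ∀ u v : WittVector p R,
    (u + (p : WittVector p R) ^ J * v).coeff J = u.coeff J + v.coeff 0 ^ p ^ J := by
  induction J with
  | zero => simp [WittVector.add_coeff_zero]
  | succ J ih =>
    intro u v
    have e1 : u = tm p (u.coeff 0) + (u.shift 1).verschiebung := by
      ext j
      rw [coeff_tm_V]
      cases j <;> simp [WittVector.teichmuller_coeff_pos, WittVector.shift_coeff, add_comm]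
    have e2 : (p : WittVector p R) ^ (J + 1) * v = (p ^ J * sg p R v).verschiebung := by
      rw [pow_succ', mul_assoc, show p ^ J * sg p R v = sg p R (p ^ J * v) by simp]
      generalize p ^ J * v = z
      ext j
      cases j <;> simp
    conv_lhs => rw [e1, e2, add_assoc, ← map_add, coeff_tm_V]
    rw [WittVector.teichmuller_coeff_pos _ _ _ J.succ_pos, WittVector.verschiebung_coeff_succ, ih,
      WittVector.shift_coeff, zero_add, add_comm 1, coeff_sg, ← pow_mul, ← pow_succ']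

theorem coeff_sg_pow (m : ℕ) (x : WittVector p R) (j : ℕ) :
    ((sg p R ^ m) x).coeff j = x.coeff j ^ p ^ m := by
  induction m with
  | zero => simp
  | succ m ih => rw [pow_succ', RingHom.mul_def, RingHom.comp_apply, coeff_sg, ih, ← pow_mul,
      ← pow_succ]

theorem wm_sg_pow (f : R →+* S) (m : ℕ) (x : WittVector p R) :
    wm p f ((sg p R ^ m) x) = (sg p S ^ m) (wm p f x) := by
  ext j
  rw [WittVector.map_coeff, coeff_sg_pow, coeff_sg_pow, map_pow, WittVector.map_coeff]

theorem sg_pow_tm (m : ℕ) (a : R) : (sg p R ^ m) (tm p a) = tm p (a ^ p ^ m) := by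
  induction m with
  | zero => simp
  | succ m ih => rw [pow_succ', RingHom.mul_def, RingHom.comp_apply, ih, sg_tm, ← pow_mul,
      ← pow_succ]

/-- the defect of the equation -/
def Dl (n : ℕ) (ω : R) (X : WittVector p R) (η : R) (α : WittVector p R) : WittVector p R :=
  tm p (ω ^ (p ^ n - 1)) * α - (sg p R ^ n) (X - tm p η) - p * (sg p R ^ n) α

theorem wm_Dl (f : R →+* S) (n : ℕ) (ω : R) (X : WittVector p R) (η : R) (α : WittVector p R) :
    wm p f (Dl n ω X η α) = Dl n (f ω) (wm p f X) (f η) (wm p f α) := by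
  simp only [Dl, map_sub, map_mul, wm_tm, wm_sg_pow, map_natCast, map_pow f]

theorem Dl_scale (n : ℕ) (ω : R) (x : WittVector p R) (y : R) (a : WittVector p R) :
    Dl n ω (tm p ω * x) (ω * y) (tm p ω * a) = tm p (ω ^ p ^ n) * Dl n 1 x y a := by
  obtain ⟨d, hd⟩ := Nat.exists_eq_add_of_le' (Nat.one_le_pow n p hp.out.pos)
  simp only [Dl, map_sub, map_mul, sg_pow_tm, one_pow, tm_one, hd, Nat.add_sub_cancel, pow_succ]
  ring

theorem Dl_cg {J : ℕ} (n : ℕ) (ω : R) (X : WittVector p R) (η : R) {α β : WittVector p R}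
    (h : Cg J α β) : Cg J (Dl n ω X η α) (Dl n ω X η β) :=
  (((Cg.refl _).mul h).sub (.refl _)).sub ((Cg.refl _).mul fun j hj => by
    rw [coeff_sg_pow, coeff_sg_pow, h j hj])

theorem WL_sg_pow {F : Fil p R} {x : WittVector p R} {t : ℝ} (h : x ∈ F.WL t) (m : ℕ) :
    (sg p R ^ m) x ∈ F.WL (p ^ m * t) := by
  induction m with
  | zero => simpa using h
  | succ m ih =>
    rw [pow_succ', pow_succ', mul_assoc]
    exact Fil.WL_sg.2 ih

end ch

variable {K : Type} [CommRing K] [Pf p K]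

variable (p K) in
/-- the degree -/
def dF : Fil p K[X] where
  F t :=
    { carrier := {f | ∀ i : ℕ, t < i → f.coeff i = 0}
      add_mem' := fun hx hy i hi => by rw [coeff_add, hx i hi, hy i hi, add_zero]
      zero_mem' := fun _ _ => rfl
      neg_mem' := fun hx i hi => by rw [coeff_neg, hx i hi, neg_zero] }
  mono _ _ h _ hx i hi := hx i (h.trans_lt hi)
  one_mem i hi := by rw [coeff_one, if_neg (Nat.cast_pos.1 hi).ne']
  mul_mem {s t x y} hx hy i hi := by
    rw [coeff_mul]
    refine Finset.sum_eq_zero fun c hc => ?_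
    have e : (c.1 : ℝ) + c.2 = i := by exact_mod_cast Finset.HasAntidiagonal.mem_antidiagonal.1 hc
    rcases lt_or_ge s c.1 with h | h
    · rw [hx _ h, zero_mul]
    · rw [hy _ (by linarith), mul_zero]
  root {t x} h i hi := by
    by_contra h0
    have h1 := le_natDegree_of_ne_zero h0
    have h2 := h (p * x.natDegree) (by
      have : (i : ℝ) ≤ x.natDegree := by exact_mod_cast h1
      push_cast
      exact mul_lt_mul_of_pos_left (by linarith) p_pos')
    rw [coeff_pow_mul_natDegree] at h2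
    exact h0 (by rw [leadingCoeff_eq_zero.1 (eq_zero_of_pow h2), coeff_zero])

/-- solutions modulo `p ^ (J + 1)` with vanishing last digit -/
theorem fin0 (hK : Aic K) {n : ℕ} (hn : 0 < n) (x : WittVector p K) (J : ℕ) :
    ∃ (y : K) (a : WittVector p K), a.coeff J = 0 ∧ Cg (J + 1) (Dl n 1 x y a) 0 := by
  rcases subsingleton_or_nontrivial K with h0 | h0
  · exact ⟨0, 0, Subsingleton.elim _ _, fun _ _ => Subsingleton.elim _ _⟩
  have : Ch p K[X] := Ch.of_hom C
  let v : WittVector p K[X] := wm p C x - tm p (C (x.coeff 0) - X)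
  let s : ℕ → WittVector p K[X] := fun J =>
    ∑ i ∈ Finset.range J, (p : WittVector p K[X]) ^ i * (sg p K[X] ^ (n * (i + 1))) v
  have hC : ∀ (c : K) (t : ℝ), 0 ≤ t → C c ∈ (dF p K).F t := fun c t ht i hi =>
    coeff_C_of_ne_zero (Nat.cast_pos.1 (ht.trans_lt hi)).ne'
  have hv : v ∈ (dF p K).WL 1 := sub_mem (Fil.mem_WL.2 fun j => hC _ _ (by positivity))
    (Fil.WL_tm (sub_mem (hC _ _ zero_le_one) fun i hi =>
      coeff_X_of_ne_one (by exact_mod_cast hi.ne')))
  have h1 : (1 : ℝ) < p := by linarith [two_le_p (p := p)]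
  have hs : s J ∈ (dF p K).WL (p ^ (n * J)) := sum_mem fun i hi => Fil.WS_mul_zero
    (Fil.mem_W0.1 ((dF p K).W0.pow_mem (natCast_mem _ p) i)) (Fil.WL_le (WL_sg_pow hv _) (by
      rw [mul_one]
      exact pow_le_pow_right₀ h1.le (Nat.mul_le_mul_left n (Finset.mem_range.1 hi))))
  have e0 : v.coeff 0 = X := by
    simp [v, coeff_sub_zero]
  have e1 : (s (J + 1)).coeff J = X ^ (p ^ (n * (J + 1)) * p ^ J) + (s J).coeff J := by
    rw [show s (J + 1) = s J + _ from Finset.sum_range_succ _ _, coeff_top, coeff_sg_pow, e0,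
      pow_mul X, add_comm]
  have h2 : ((s J).coeff J).degree < (p ^ (n * (J + 1)) * p ^ J : ℕ) :=
    (degree_lt_iff_coeff_zero _ _).2 fun m hm => Fil.mem_WL.1 hs J m (by
      have : (p : ℝ) ^ (n * (J + 1)) * p ^ J ≤ m := by exact_mod_cast hm
      refine lt_of_lt_of_le ?_ this
      rw [mul_comm]
      exact mul_lt_mul_of_pos_right (pow_lt_pow_right₀ h1 (by nlinarith)) (by positivity))
  obtain ⟨z, hz⟩ := hK _ (monic_X_pow_add h2) (by
    rw [natDegree_add_eq_left_of_degree_lt (by rwa [degree_X_pow]), natDegree_X_pow]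
    have := hp.out.pos
    positivity)
  have e2 : ∀ J, s (J + 1) = (sg p K[X] ^ n) v + p * (sg p K[X] ^ n) (s J) := fun J => by
    simp only [s, Finset.sum_range_succ', map_sum, map_mul, map_pow, map_natCast, Finset.mul_sum]
    rw [add_comm]
    simp only [pow_zero, one_mul, zero_add, mul_one, add_right_inj]
    refine Finset.sum_congr rfl fun i _ => ?_
    rw [pow_succ', mul_assoc, mul_add n (i + 1), mul_one, add_comm (n * _), pow_add]
    rfl
  refine ⟨x.coeff 0 - z, wm p (evalRingHom z) (s (J + 1)), ?_, ?_⟩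
  · show eval z ((s (J + 1)).coeff J) = 0
    rw [e1]
    exact hz
  · have e3 : Dl n 1 (wm p C x) (C (x.coeff 0) - X) (s (J + 1)) =
        p ^ (J + 1) * -(sg p K[X] ^ (n * (J + 1 + 1))) v := by
      have := e2 (J + 1)
      rw [show s (J + 1 + 1) = s (J + 1) + _ from Finset.sum_range_succ _ _] at this
      rw [Dl, one_pow, tm_one]
      change 1 * _ - (sg p K[X] ^ n) v - _ = _
      generalize (sg p K[X] ^ n) v = b at this ⊢
      generalize (sg p K[X] ^ n) (s (J + 1)) = c at this ⊢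
      generalize (sg p K[X] ^ (n * (J + 1 + 1))) v = d at this ⊢
      linear_combination this
    have e4 := congrArg (wm p (evalRingHom z)) e3
    rw [wm_Dl, wm_comp, wm_congr (g := RingHom.id K) fun a => by simp] at e4
    simp only [map_one, map_sub, coe_evalRingHom, eval_C, eval_X, map_mul, map_pow,
      map_natCast] at e4
    exact e4 ▸ cg_pow_mul _ _

theorem si_Dl (n : ℕ) (x : WittVector p K) (y : K) (a : WittVector p K) :
    (si p K ^ n) (Dl n 1 x y a) = (si p K ^ n) a - (x - tm p y) - p * a := by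
  rw [Dl, one_pow, tm_one, one_mul, map_sub, map_sub, map_mul, map_natCast, si_sg_pow, si_sg_pow]

/-- these solutions are uniformly bounded -/
theorem fin (hK : Aic K) {F : Fil p K} (hF : F.Closed) (hE : F.Exh) {n : ℕ} (hn : 0 < n)
    {x : WittVector p K} {τ : ℝ} (hτ : 0 ≤ τ) (hx : x ∈ F.WL τ) (J : ℕ) :
    ∃ y ∈ F.F τ, ∃ a ∈ F.WT J τ, Cg J (Dl n 1 x y a) 0 := by
  obtain ⟨y, a, h1, h2⟩ := fin0 hK hn x J
  have h3 := h2.si_pow n
  rw [si_Dl, map_zero] at h3
  have h4 : ∀ t, τ ≤ t → a ∈ F.WT J t →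
      y ∈ F.F (τ + (t - τ) / 2) ∧ a ∈ F.WT J (τ + (t - τ) / 2) := fun t ht ha => by
    have a1 : a ∈ F.WT (J + 1) t := fun j hj => (Nat.lt_succ_iff_lt_or_eq.1 hj).elim (ha j)
      fun e => by rw [e, h1]; exact zero_mem _
    have a2 : (si p K ^ n) a - x ∈ F.WT (J + 1) (τ + (t - τ) / 2) := by
      have := div_le_div_of_nonneg_left (hτ.trans ht) two_pos (Fil.two_le_pow (p := p) hn)
      exact sub_mem (Fil.WT_le (Fil.WT_si_pow a1 n) le_rfl (by linarith))
        (Fil.WT_le (Fil.WL.WT hx _) le_rfl (by linarith))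
    have a3 : Cg (J + 1) ((si p K ^ n) a - x) (p * a - tm p y) :=
      Cg.iff_sub.2 (by convert h3 using 1; ring)
    have a4 : y ∈ F.F (τ + (t - τ) / 2) := by
      have := Fil.WT_cg a2 a3 0 J.succ_pos
      simpa [coeff_sub_zero] using this
    exact ⟨a4, Fil.WT_of_p_mul (by simpa using add_mem (Fil.WT_cg a2 a3) (Fil.WT_tm a4))⟩
  have h5 := hF.fix hE (e := fun _ : Unit => a) one_lt_two (fun t ht H _ => (h4 t ht (H ())).2) ()
  exact ⟨y, by simpa using (h4 τ le_rfl h5).1, a, h5, h2.mono J.le_succ⟩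

/-- the finite level over a ring in which monic polynomials have roots -/
theorem lev {D : Type} [CommRing D] [Ch p D] (hD : Aic D) {n : ℕ} (hn : 0 < n) (w : D) (N : ℕ)
    (X : WittVector p D) (J : ℕ) : ∃ (η : D) (α : WittVector p D), ∀ j < J,
      IsNilpotent (w * (Dl n (w ^ (N + 1)) (tm p w * X) η α).coeff j) := by
  let E := D ⧸ nilradical D
  let π : D →+* E := Ideal.Quotient.mk _
  have : Pf p E := hD.pf
  let L := Localization.Away (π w)
  have : Pf p L := Pf.loc (Submonoid.powers (π w)) L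
  let θ : D →+* L := (algebraMap E L).comp π
  obtain ⟨u, hu⟩ : IsUnit (θ w) := IsLocalization.Away.algebraMap_isUnit (π w)
  have h1 : (u : L) ∈ θ.range := ⟨w, hu.symm⟩
  have h2 : ∀ x, x ^ p ∈ θ.range → x ∈ θ.range := fun x ⟨d, hd⟩ => by
    obtain ⟨d', e⟩ := Ideal.Quotient.mk_surjective (rt p E (π d))
    refine ⟨d', pow_p_inj (hd ▸ ?_)⟩
    show algebraMap E L (π d') ^ p = algebraMap E L (π d)
    rw [← map_pow, show π d' = _ from e, rt_pow]
  obtain ⟨y, hy, a, ha, e⟩ := fin ((hD.of_surj π Ideal.Quotient.mk_surjective).loc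
    (Submonoid.powers (π w)) L) (Fil.closed_pole (hw := h1) (hC := h2)) (Fil.exh_pole fun z => by
      obtain ⟨m, b, hb⟩ := IsLocalization.Away.surj (π w) z
      obtain ⟨d, rfl⟩ := Ideal.Quotient.mk_surjective b
      exact ⟨m, d, by rw [hu, mul_comm]; exact hb.symm⟩) hn (Nat.cast_nonneg N)
    (Fil.WL_pole_of_tm (z := tm p (↑u⁻¹ : L) ^ N * wm p θ X) (by
      rw [← mul_assoc, ← mul_pow, ← tm_mul, u.mul_inv, tm_one, one_pow, one_mul]
      exact mem_wsub.2 fun j => ⟨_, rfl⟩)) J
  obtain ⟨η, hη⟩ := Fil.pow_mul_of_pole hy (N := N + 1) (by simp)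
  have h3 : ∀ j, ∃ d, j < J → θ d = (tm p ((u : L) ^ (N + 1)) * a).coeff j := fun j => by
    by_cases hj : j < J
    · obtain ⟨d, hd⟩ := Fil.pow_mul_of_pole (ha j hj) (N := (N + 1) * p ^ j) (by
        have := pow_pos (p_pos' (p := p)) j
        push_cast
        nlinarith)
      exact ⟨d, fun _ => by rw [hd, coeff_tm_mul, pow_mul]⟩
    · exact ⟨0, fun h => absurd h hj⟩
  choose α hα using h3
  refine ⟨η, WittVector.mk p α, fun j hj => ?_⟩
  have h4 : Cg J (wm p θ (Dl n (w ^ (N + 1)) (tm p w * X) η (WittVector.mk p α))) 0 := by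
    rw [wm_Dl, map_pow, map_mul, wm_tm, hη, ← hu]
    refine (Dl_cg _ _ _ _ (α := wm p θ (WittVector.mk p α)) (β := tm p ((u : L) ^ (N + 1)) * a)
      hα).trans ?_
    rw [show tm p (u : L) * wm p θ X = tm p ((u : L) ^ (N + 1)) * (tm p (↑u⁻¹ : L) ^ N * wm p θ X) by
      rw [← mul_assoc, ← tm_pow, ← tm_mul, pow_succ', mul_assoc, ← mul_pow, u.mul_inv, one_pow,
        mul_one], Dl_scale]
    exact e.mul_zero _
  obtain ⟨m, hm⟩ := IsLocalization.Away.exists_of_eq (S := L) (π w)
    ((h4 j hj).trans ((WittVector.zero_coeff p _ j).trans (map_zero _).symm))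
  rw [mul_zero] at hm
  exact mem_nilradical.1 (Ideal.Quotient.eq_zero_iff_mem.1 (mul_eq_zero_of_pow hm))

end Sl

variable (p) in
/-- bounded classes are locally Teichmueller representatives -/
def SLB : Prop := ∀ (h : ℕ) (T : Tri p) (x : WittVector p T.K), x ∈ Bd p T.C →
  Loc T fun T' f => ∃ y : T'.K, ∃ a ∈ Bd p T'.C,
    wm p f.f x = tm p y + (si p T'.K ^ (h + 1)) a - p * a

theorem slb : SLB p := by
  rintro h T x ⟨t, ht, hx⟩
  obtain ⟨N, hN⟩ := T.exh (↑t⁻¹ : T.K)
  obtain ⟨X, hX⟩ : tm p ((T.w : T.K) ^ N) * x ∈ WI p T.C := by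
    convert mul_mem (tm_mem hN) hx using 1
    rw [← mul_assoc, ← tm_mul, mul_assoc _ _ (t : T.K), t.inv_mul, mul_one]
  obtain ⟨D, _, _, h1, h2⟩ := exists_aic T.C
  have : Ch p D := Ch.of_hom (algebraMap T.C D)
  have : Pf p T.C := Pf.subring _ T.rt_mem
  let w : T.C := ⟨_, T.w_mem⟩
  choose η α H using Sl.lev h2 h.succ_pos (algebraMap T.C D w) N (wm p (algebraMap T.C D) X)
  let I : Ideal (ℕ → D) :=
    { carrier := {g | ∀ᶠ J in Filter.atTop, IsNilpotent (g J)}
      add_mem' := fun ha hb => (ha.and hb).mono fun _ h => (Commute.all _ _).isNilpotent_add h.1 h.2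
      zero_mem' := .of_forall fun _ => .zero
      smul_mem' := fun c _ ha => ha.mono fun _ h => (Commute.all _ _).isNilpotent_mul_left h }
  refine .pure ((ℕ → D) ⧸ I) (Sl.pure_quot I fun s hs => ?_) fun T' f ψ a1 a2 => .here ?_
  · obtain ⟨J, hJ⟩ := ((Filter.eventually_all_finset s).2 hs).exists
    obtain ⟨m, hm⟩ := ((Filter.eventually_all_finset s).2 fun g hg => (hJ g hg).elim fun r e =>
      (Filter.eventually_ge_atTop r).mono fun m hm => pow_eq_zero_of_le
        (hm.trans (Nat.lt_pow_self (one_lt_p (p := p))).le) e).exists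
    refine ⟨D, _, (fr p D ^ m).comp (Pi.evalRingHom _ J), fun g hg =>
      (fr_pow_apply m _).trans (hm g hg), ?_⟩
    rw [show ((fr p D ^ m).comp (Pi.evalRingHom (fun _ => D) J)).comp (algebraMap T.C (ℕ → D)) =
      (algebraMap T.C D).comp (fr p T.C ^ m) from RingHom.ext fun c => by
        rw [RingHom.comp_apply, RingHom.comp_apply, RingHom.comp_apply, fr_pow_apply,
          fr_pow_apply, map_pow]
        rfl]
    exact RingHom.FaithfullyFlat.stableUnderComposition _ _ (.of_bijective ⟨fun a b e =>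
      pow_pp_inj m (by rwa [fr_pow_apply, fr_pow_apply] at e), fun a => ⟨_, by
        rw [fr_pow_apply, rt_pow_pp]⟩⟩) (RingHom.faithfullyFlat_algebraMap_iff.2 h1)
  let χ : (ℕ → D) →+* T'.K := ψ.comp (Ideal.Quotient.mk I)
  let ι := algebraMap T.C (ℕ → D)
  let A : WittVector p (ℕ → D) := WittVector.mk p fun j J => (α J).coeff j
  have e1 : χ (ι w) = T'.w := (a2 w).trans f.map_w
  have e2 : wm p χ (Sl.Dl (h + 1) (ι w ^ (N + 1)) (tm p (ι w) * wm p ι X) η A) = 0 := by
    ext j
    rw [WittVector.zero_coeff, ← T'.w.isUnit.mul_right_eq_zero, WittVector.map_coeff, ← e1,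
      ← map_mul]
    refine (congrArg ψ (Ideal.Quotient.eq_zero_iff_mem.2 ?_)).trans (map_zero _)
    refine (Filter.eventually_gt_atTop j).mono fun J hJ => ?_
    have := congrArg (WittVector.coeff · j) (Sl.wm_Dl (Pi.evalRingHom (fun _ => D) J) (h + 1)
      (ι w ^ (N + 1)) (tm p (ι w) * wm p ι X) η A)
    rw [map_mul, wm_tm] at this
    exact (congrArg (fun z => IsNilpotent (algebraMap T.C D w * z)) this).mpr (H J j hJ)
  let u := T'.w ^ (N + 1)
  have hu : (u : T'.K) ∈ T'.C := by simpa [u] using pow_mem T'.w_mem (N + 1)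
  have e3 : ∀ z : WittVector p T'.K, tm p (u : T'.K) * (tm p (↑u⁻¹ : T'.K) * z) = z := fun z => by
    rw [← mul_assoc, ← tm_mul, u.mul_inv, tm_one, one_mul]
  have e4 : tm p (T'.w : T'.K) * wm p χ (wm p ι X) = tm p (u : T'.K) * wm p f.f x := by
    rw [wm_comp, wm_congr (g := f.f.comp T.C.subtype) a2, ← wm_comp, hX, map_mul, wm_tm, map_pow,
      f.map_w, ← mul_assoc, ← tm_mul, ← pow_succ', Units.val_pow_eq_pow_val]
  rw [Sl.wm_Dl, map_pow, map_mul, wm_tm, e1, e4, ← Units.val_pow_eq_pow_val, ← e3 (wm p χ A),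
    ← u.mul_inv_cancel_left (χ η), Sl.Dl_scale] at e2
  have e5 := congrArg (si p T'.K ^ (h + 1)) ((((u.isUnit.pow _).map
    (WittVector.teichmuller p)).mul_right_eq_zero).1 e2)
  rw [Sl.si_Dl, map_zero] at e5
  exact ⟨_, _, mul_mem (tm_inv_mem hu) (WI.le_Bd (mem_wsub.2 fun j => a1 _)), by
    show wm p f.f x = _
    linear_combination -e5⟩

end P261.B7
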