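import Vale.Agent.P261Z.B7.Move
import Vale.Agent.P261Z.B.Contr
import Vale.Agent.P261Z.L.Defs
import Vale.Agent.P261Z.S.CF

/-!
# P261Z, block B: from marked test objects to pairs; vertices of colour `Z` exist locally
-/

open Matrix

noncomputable section

namespace P261.B7

variable {p : ℕ} [hp : Fact p.Prime] {k : Type} [Field k]

/-- the pair of a marked test object -/
def tri (T : FP p k) (w : (Gm p k).obj T) (hE : T.F.Exh) : Tri p where
  K := T.K
  C := T.F.zero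
  w := w.1
  w_mem := T.F.le w.2.1 (by norm_num)
  rt_mem y hy := T.F.root (by rw [rt_pow, mul_zero]; exact hy)
  exh y := by
    obtain ⟨t, ht⟩ := hE y
    obtain ⟨N, hN⟩ := exists_nat_ge t
    exact ⟨N, T.F.mul_le (T.F.pow_mem w.2.1 N) ht (by linarith)⟩
  sat y h := T.cl.of_pow (b := 1) fun n => by
    have h1 : (rt p T.K ^ n) (↑w.1⁻¹ : T.K) ∈ T.F.F (1 / p ^ n) := T.F.root_pow n (by
      rw [rt_pow_pp, mul_one_div_cancel (pow_pos p_pos' n).ne']
      exact w.2.2)
    have h2 := T.F.mul_mem h1 (h n)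
    rwa [← mul_assoc, ← map_mul, w.1.inv_mul, map_one, one_mul, add_comm] at h2

/-- the map of pairs -/
def triH {T T' : FP p k} (w : (Gm p k).obj T) (hE : T.F.Exh) (f : T.Hom T') (hE' : T'.F.Exh) :
    (tri T w hE).Hom (tri T' ((Gm p k).map f w) hE') := ⟨f.r, f.mem 0, rfl⟩

theorem bridge' {T₀ : Tri p} {P : (T' : Tri p) → T₀.Hom T' → Prop} (h : Loc T₀ P) :
    ∀ (T : FP p k) (w : (Gm p k).obj T) (hE : T.F.Exh) (e : tri T w hE = T₀)
      {Q : (T' : FP p k) → T.Hom T' → Prop},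
      (∀ T' f hE', P _ (e ▸ triH w hE f hE') → Q T' f) → FLoc T Q := by
  induction h with
  | here h =>
    rintro T w hE rfl Q hq
    exact .here (hq T (.id T) hE h)
  | pure D hD _ ih =>
    rename_i i1 i2 _
    rintro T w hE rfl Q hq
    let _ : Algebra T.F.zero D := i2
    exact FLoc.pure D hD fun T' f hE' o =>
      ih _ (triH w hE f hE') o.ψ o.mem o.alg T' _ hE' rfl fun T'' g hE'' h =>
        hq T'' (g.comp f) hE'' h
  | bl a b ha hb _ ih =>
    rintro T w hE rfl Q hq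
    exact .bl a b ha hb fun T' f hE' o =>
      ih _ (triH w hE f hE') o T' _ hE' rfl fun T'' g hE'' h => hq T'' (g.comp f) hE'' h

/-- covers of pairs give covers of marked test objects -/
theorem bridge {T : FP p k} {w : (Gm p k).obj T} {hE : T.F.Exh}
    {P : (T' : Tri p) → (tri T w hE).Hom T' → Prop} (h : Loc (tri T w hE) P)
    {Q : (T' : FP p k) → T.Hom T' → Prop} (hq : ∀ T' f hE', P _ (triH w hE f hE') → Q T' f) :
    FLoc T Q := bridge' h T w hE rfl hq

namespace Vt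

variable {K : Type} [CommRing K] {E : Type} [Fintype E] [DecidableEq E] {h : ℕ} {F : Fil p K}

theorem WI_iff {x : WittVector p K} : x ∈ WI p F.zero ↔ x ∈ F.WL 0 := by
  simp only [mem_wsub, Fil.mem_WL, mul_zero, Fil.mem_zero]

theorem lin (hE : F.Exh) {ι κ : Type} [Finite ι] [Finite κ] {g : Matrix ι κ (WittVector p K)}
    (hg : Ent (Bd p F.zero) g) : ∃ t, ∀ i j, g i j ∈ F.Wlin t 0 := by
  obtain ⟨t, -, h1⟩ := hg.den
  obtain ⟨τ, h2⟩ := hE (↑t⁻¹ : K)
  refine ⟨τ + 0, fun i j => Fil.WL.lin ?_⟩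
  have := Fil.WL_mul (Fil.WL_tm h2) (WI_iff.1 (h1 i j))
  rwa [Matrix.smul_apply, smul_eq_mul, ← mul_assoc, ← tm_mul, t.inv_mul, tm_one, one_mul] at this

omit [Fintype E] in
theorem V0_eq : V0 p E (h + 1) (WittVector p K) = fromBlocks 1 0 0 (Hm p K h) := by
  unfold V0
  congr 1
  ext i j : 1
  simp only [Hm, of_apply, Fin.ext_iff, Fin.val_add_one, Fin.val_last]
  have := i.2
  split_ifs <;> first | omega | rfl

omit [Fintype E] in
theorem B0_eq : B0 p E (h + 1) (WittVector p K) =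
    fromBlocks ((p : WittVector p K) • 1) 0 0 (Hm' p K h) := by
  unfold B0
  congr 1
  ext i j : 1
  simp only [Hm', of_apply, Fin.ext_iff, Fin.val_add_one, Fin.val_last]
  have := j.2
  split_ifs <;> first | omega | rfl

theorem V0_B0 : V0 p E (h + 1) (WittVector p K) * B0 p E (h + 1) (WittVector p K) =
    (p : WittVector p K) • (1 : Matrix _ _ (WittVector p K)) := by
  rw [V0_eq, B0_eq, fromBlocks_multiply, Hm_mul, ← fromBlocks_one, fromBlocks_smul]
  simp

variable [Pf p K]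

theorem Ua_mul (a b : E → WittVector p K) : Ua h a * Ua h b = Ua h (a + b) := by
  simp only [Ua, fromBlocks_multiply, Matrix.mul_one, Matrix.one_mul, Matrix.mul_zero,
    Matrix.zero_mul, add_zero, zero_add]
  congr 1
  ext i j : 1
  simp [add_comm]

omit [Fintype E] in
theorem Ua_zero : Ua h (0 : E → WittVector p K) = 1 := by
  rw [Ua, ← fromBlocks_one]
  congr 1
  ext i j : 1
  simp

theorem Ua_Nx (a : E → WittVector p K) : V0 p E (h + 1) _ * (Ua (h + 1) a).map (si p K) =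
    Ua (h + 1) a * Nx h fun i => Dop p K (h + 1) (a i) := by
  rw [V0_eq, Ua, Nx, blocks_map, map_one']
  simp only [fromBlocks_multiply, Matrix.mul_one, Matrix.one_mul, Matrix.mul_zero,
    Matrix.zero_mul, add_zero, zero_add]
  congr 1
  ext i j : 1
  have e1 : si p K ((si p K ^ (j : ℕ)) (a i)) = (si p K ^ (j + 1 : ℕ)) (a i) := by
    rw [pow_succ']; rfl
  simp only [Matrix.add_apply, mul_Hm, lcol, of_apply, map_apply, e1, Dop_apply]
  split_ifs with hj
  · subst hj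
    rw [Fin.last_add_one]
    simp
    ring
  · rw [Fin.val_add_one_of_lt (Fin.lt_last_iff_ne_last.2 hj)]
    simp

/-- a lattice gives a vertex -/
theorem vert (hF : F.Closed) (hE : F.Exh) {a : E → WittVector p K}
    (ha : ∀ i, Dop p K (h + 1) (a i) ∈ F.WL 1)
    (hL : Lat F.zero (Nx h fun i => Dop p K (h + 1) (a i))) :
    ∃ μ ν, LV.IsZ F (⟨a, true, μ, ν, 0, 0⟩ : LV p E (h + 1) K) := by
  obtain ⟨A, ⟨b1, B, b2, b3, b4⟩, g, g', a1, a2, a3, a4, a5⟩ := hL
  have u1 : Ua (h + 1) (-a) * Ua (h + 1) a = 1 := by rw [Ua_mul, neg_add_cancel, Ua_zero]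
  have u2 : Ua (h + 1) a * Ua (h + 1) (-a) = 1 := by rw [Ua_mul, add_neg_cancel, Ua_zero]
  have inv : Ua (h + 1) a * g' * (g * Ua (h + 1) (-a)) = 1 := by
    rw [Matrix.mul_assoc, ← Matrix.mul_assoc g', a4, Matrix.one_mul, u2]
  have eA : g * Ua (h + 1) (-a) * V0 p E (h + 1) _ * (Ua (h + 1) a * g').map (si p K) = A := by
    rw [Matrix.map_mul, Matrix.mul_assoc, ← Matrix.mul_assoc (V0 _ _ _ _), Ua_Nx, Matrix.mul_assoc,
      Matrix.mul_assoc, ← Matrix.mul_assoc (Ua _ _), u1, Matrix.one_mul, inv_eq a3 a4 a5,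
      ← Matrix.mul_assoc, a3, Matrix.one_mul]
  have eB : (g * Ua (h + 1) (-a)).map (si p K) * B0 p E (h + 1) _ * (Ua (h + 1) a * g') = B := by
    generalize g * Ua (h + 1) (-a) = ν at inv eA ⊢
    generalize Ua (h + 1) a * g' = μ at inv eA ⊢
    have e1 : A * (ν.map (si p K) * B0 p E (h + 1) _ * μ) = (p : WittVector p K) • 1 := by
      calc _ = ν * (V0 p E (h + 1) _ * ((μ * ν).map (si p K) * B0 p E (h + 1) _)) * μ := by
            rw [← eA]
            simp only [Matrix.map_mul, Matrix.mul_assoc]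
        _ = _ := by
            rw [inv, map_one', Matrix.one_mul, V0_B0, Matrix.mul_smul, Matrix.mul_one,
              Matrix.smul_mul, mul_eq_one_comm.1 inv]
    have e2 := congrArg (B * ·) e1
    simp only [← Matrix.mul_assoc B, b4, Matrix.mul_smul, Matrix.smul_mul, Matrix.one_mul,
      Matrix.mul_one] at e2
    exact Matrix.ext fun i j => p_mul_inj (congrFun (congrFun e2 i) j)
  have z1 : ∀ {x : WittVector p K}, x ∈ WI p F.zero → x ∈ F.WL 1 := fun h =>
    Fil.WL_le (WI_iff.1 h) zero_le_one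
  have hξ : ∀ i j, lcol h (fun i => Dop p K (h + 1) (a i)) i j ∈ F.WL 1 := fun i j => by
    simp only [lcol, of_apply]
    split_ifs
    exacts [ha i, zero_mem _]
  obtain ⟨t, ht⟩ := lin hE a1
  obtain ⟨t', ht'⟩ := lin hE a2
  refine ⟨Ua (h + 1) a * g', g * Ua (h + 1) (-a), ha, rfl, inv, fun i j => WI_iff.1 ?_,
    fun i j => WI_iff.1 ?_, fun i j => ?_, fun i j => ?_⟩
  · rw [LV.mA, eA]
    exact b1 i j
  · rw [LV.mB, eB]
    exact b2 i j
  · show (Ua (h + 1) (-a) * (Ua (h + 1) a * g')) i j ∈ _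
    rw [← Matrix.mul_assoc, u1, Matrix.one_mul]
    refine Fil.WL_le (hF.B1' (a := 1) (b := 0) ht' ?_ (fun i j => WI_iff.1 (b2 i j)) (by norm_num)
      b3 (inv_eq a3 a4 a5) i j) (by norm_num)
    rintro (i | i) (j | j)
    exacts [z1 (Ent.one i j), hξ i j, zero_mem _, z1 (Hm_ent i j)]
  · show (g * Ua (h + 1) (-a) * Ua (h + 1) a) i j ∈ _
    rw [Matrix.mul_assoc, u1, Matrix.mul_one]
    refine Fil.WL_le (hF.B1' (a := 0) (b := 1) (B := fromBlocks ((p : WittVector p K) • 1)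
      (-(lcol h (fun i => Dop p K (h + 1) (a i)) * Hm' p K h)) 0 (Hm' p K h)) ht
      (fun i j => WI_iff.1 (b1 i j)) ?_ (by norm_num) ?_ a5 i j) (by norm_num)
    · rintro (i | i) (j | j)
      · exact z1 (Ent.one.smul (natCast_mem _ _) i j)
      · exact neg_mem (Fil.WL_le (Fil.WL_mmul hξ (fun i j => WI_iff.1 (Hm'_ent i j)) i j)
          (add_zero _).le)
      · exact zero_mem _
      · exact z1 (Hm'_ent i j)
    · rw [Nx, fromBlocks_multiply, Hm_mul, ← fromBlocks_one, fromBlocks_smul]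
      simp

end Vt

/-- vertices of colour `Z` with a given lift exist locally -/
theorem zloc (hX : EXL p) {E : Type} [Fintype E] [DecidableEq E] {h : ℕ} (hh : 1 ≤ h)
    (T : FP p k) (w : (Gm p k).obj T) (hE : T.F.Exh) (a : E → T.W)
    (ha : ∀ i, Dop p T.K h (a i) ∈ T.F.WL 1) :
    FLoc T fun T' f => ∃ v : LV p E h T'.K, (cZ p k E h).P v ∧ v.a = fun i => f.w (a i) := by
  obtain ⟨h, rfl⟩ := Nat.exists_eq_add_of_le' hh
  refine bridge (hX h E (tri T w hE) (fun i => Dop p T.K (h + 1) (a i)) fun i =>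
    ⟨w.1, (tri T w hE).w_mem, Vt.WI_iff.2 ?_⟩) fun T' f hE' hL => ?_
  · exact Fil.WL_le (Fil.WL_mul (Fil.WL_tm w.2.1) (ha i)) (by norm_num)
  · have e : ∀ i, f.w (Dop p T.K (h + 1) (a i)) = Dop p T'.K (h + 1) (f.w (a i)) :=
      fun i => wm_Dop _ _ _
    obtain ⟨μ, ν, H⟩ := Vt.vert (a := fun i => f.w (a i)) T'.cl hE' (fun i => e i ▸ f.wl (ha i))
      (by simp only [← e]; exact hL)
    exact ⟨_, ⟨H, ⟨fun _ _ _ => zero_mem _, fun _ _ _ _ => rfl, fun _ h => h.elim⟩, rfl⟩, rfl⟩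

end P261.B7
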