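import Vale.Agent.P261Z.B7.All
import Vale.Agent.P261Z.B7.Vert
import Vale.Agent.P261Z.B.Igu
import Vale.Agent.P261Z.C1.Okz
import Vale.Agent.P261Z.S.Rep0
import Vale.Agent.P261Z.S.Rep3

/-!
# P261Z, block B: lattices cover
-/

noncomputable section

namespace P261

variable {p : ℕ} [hp : Fact p.Prime] {k : Type} [Field k]

theorem B7.exl' : B7.EXL p := B7.exl B7.igu

theorem stB_of (hk : Pf p k) (hS : SS.SECLOC p k) : StB p k := by
  intro E _ _ h B _ _ _ hh
  obtain ⟨r1, r2, r3⟩ := SS.rep3' SS.rep0 hk E h hh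
  refine hS hk (LS p k E h (PF.base p k B)) Bool _ _ (· = true)
    (r3 _ _ _ ((SS.rep0 hk).1 B) fun c => by cases c; exacts [r1, r2 _]) fun m T w hE z => ?_
  obtain ⟨u, hu⟩ := Option.isSome_iff_exists.1 (z.on false 0 rfl)
  refine (B7.zloc B7.exl' hh T w hE u.a (z.col _ _ _ hu).1.1).mono fun T' f ⟨v, h1, h2⟩ =>
    ⟨true, rfl, rfl, v, ⟨h1, trivial, fun c i u' e => ?_⟩, C1.okz _ _ _ _ _ _ T'.cl h1.1 h1.1
      fun i => by simp, fun T'' g c u' hc _ H => ?_⟩
  · obtain ⟨u'', e', rfl⟩ := Option.map_eq_some_iff.1 e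
    cases c
    · have a1 : u''.lat = false := (z.col _ _ _ e').1.2.1
      refine ⟨⟨fun i => ?_, fun a => absurd (a1.symm.trans a) (by simp)⟩,
        ⟨fun i => ?_, fun _ a => absurd (a1.symm.trans a) (by simp)⟩⟩
      · rw [h2]
        exact ((z.ok _ _ _ _ _ _ e' hu).map f).a i
      · rw [h2]
        exact ((z.ok _ _ _ _ _ _ hu e').map f).a i
    · exact absurd ((z.off true i rfl).symm.trans e') (by simp)
  · subst hc
    obtain ⟨a1, a2⟩ := H.2.2 false 0 ((u.map f.r).map g.r) (by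
      show ((z.w false 0).map _).map _ = _
      rw [hu]
      rfl)
    have e : (v.map g.r).a = ((u.map f.r).map g.r).a := funext fun i => congrArg g.w (congrFun h2 i)
    exact ⟨C1.okz _ _ _ _ _ _ T''.cl (h1.1.map g) H.1.1 (e ▸ a1.a),
      C1.okz _ _ _ _ _ _ T''.cl H.1.1 (h1.1.map g) (e ▸ a2.a)⟩

end P261
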