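import Vale.Agent.P261Z.B7.Move

/-!
# P261Z, block B: lattices exist locally, by induction on the étale rank
-/

open Matrix

noncomputable section

namespace P261.B7

variable {p : ℕ} [hp : Fact p.Prime]

namespace St

variable {ι κ μ : Type} {T : Tri p} {h : ℕ}

theorem smul_map {R R' : Type} [CommRing R] [CommRing R'] (φ : R →+* R') (a : R)
    (A : Matrix ι κ R) : (a • A).map φ = φ a • A.map φ := by
  ext i j
  simp

theorem ent_map {T' : Tri p} (f : T.Hom T') {t : T.K} {A : Matrix ι κ (WittVector p T.K)}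
    (hA : Ent (WI p T.C) (tm p t • A)) : Ent (WI p T'.C) (tm p (f.f t) • A.map (wm p f.f)) := by
  rw [← wm_tm, ← smul_map]
  exact hA.map fun _ => WI.map f.mem

theorem ent_bd {t : T.Kˣ} (ht : (t : T.K) ∈ T.C) {A : Matrix ι κ (WittVector p T.K)}
    (hA : Ent (WI p T.C) (tm p (t : T.K) • A)) : Ent (Bd p T.C) A :=
  fun i j => ⟨t, ht, hA i j⟩

theorem root_dvd {s : T.K} (hs : s ∈ T.C) (k M : ℕ) :
    ∃ c ∈ T.C, (rt p T.K ^ k) s = rt p T.K ((rt p T.K ^ (k + M)) (s ^ M)) * c := by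
  obtain ⟨d, hd⟩ := Nat.exists_eq_add_of_le ((Nat.le_succ M).trans
    (Nat.lt_pow_self (n := M + 1) (one_lt_p (p := p))).le)
  refine ⟨_, T.rt_mem _ (T.rt_pow_mem (k + M) (pow_mem hs d)), ?_⟩
  rw [← map_mul, ← map_mul, ← pow_add, ← hd]
  show _ = (rt p T.K * rt p T.K ^ (k + M)) _
  rw [← pow_succ', add_assoc, pow_add, RingHom.mul_def, RingHom.comp_apply, rt_pow_pp']

variable [Fintype ι] [DecidableEq ι] [Fintype κ] [DecidableEq κ]

theorem modl (hM : MOD p) (N : ℕ) {A : Matrix κ κ (WittVector p T.K)}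
    {ξ : Matrix ι κ (WittVector p T.K)}
    (h : LL T (fromBlocks 1 ((p : WittVector p T.K) ^ N • ξ) 0 A)) : LL T (fromBlocks 1 ξ 0 A) :=
  LL.bind h fun T' f h => by
    rw [blocks_map] at h ⊢
    exact modn hM _ T' _ _ (fun _ => N) rfl (by convert h using 2; ext i j : 1; simp)

omit [Fintype ι] [DecidableEq ι] in
/-- multiplication by `p` divides the pole of the class by `p` -/
theorem red {A : Matrix κ κ (WittVector p T.K)} (hA : Dieu T.C A)
    {ξ : Matrix ι κ (WittVector p T.K)} {t : T.K} (h1 : Ent (Bd p T.C) ξ)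
    (h2 : Ent (WI p T.C) (tm p t • ξ)) (N : ℕ) : ∃ a ξ' : Matrix ι κ (WittVector p T.K),
      Ent (Bd p T.C) a ∧ Ent (Bd p T.C) ξ' ∧ Ent (WI p T.C) (tm p ((rt p T.K ^ N) t) • ξ') ∧
      (p : WittVector p T.K) ^ N • ξ + a * A - a.map (si p T.K) = ξ' := by
  obtain ⟨-, B, b1, -, b2⟩ := hA
  induction N with
  | zero => exact ⟨0, ξ, .zero, h1, h2, by simp⟩
  | succ N ih =>
    obtain ⟨a, ξ', a1, a2, a3, a4⟩ := ih
    have a5 := a2.mul (b1.mono WI.le_Bd)
    refine ⟨(p : WittVector p T.K) • a - ξ' * B, (ξ' * B).map (si p T.K),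
      (a1.smul (natCast_mem _ _)).sub a5, a5.map fun _ => T.si_mem', ?_, ?_⟩
    · rw [pow_succ']
      exact T.si_ent (by rw [← Matrix.smul_mul]; exact a3.mul b1)
    · rw [Matrix.map_sub _ (map_sub _), smul_map, map_natCast, Matrix.sub_mul, Matrix.mul_assoc,
        b2, Matrix.mul_smul, Matrix.mul_one, Matrix.smul_mul, pow_succ', mul_smul, ← a4]
      simp only [smul_add, smul_sub]
      abel

/-- small perturbations preserve the existence of a lattice -/
theorem pert (hB : BON p) {ξ : Matrix ι (Fin (h + 1)) (WittVector p T.K)} {s : T.Kˣ}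
    (hs : (s : T.K) ∈ T.C) (hξ : Ent (WI p T.C) (tm p (s : T.K) • ξ))
    {E : Matrix (ι ⊕ Fin (h + 1)) (ι ⊕ Fin (h + 1)) (WittVector p T.K)} (h1 : Ent (WI p T.C) E)
    (h2 : E * E = 0) (hL : Lat T.C (fromBlocks 1 ξ 0 (Hm p T.K h))) :
    Lat T.C (fromBlocks 1 ξ 0 (Hm p T.K h) *
      (1 - tm p (rt p T.K ((s : T.K) ^ (Fintype.card (ι ⊕ Fin (h + 1)) + 1))) • E)) := by
  obtain ⟨A', hA, g, g', a1, a2, a3, a4, a5⟩ := hL
  obtain ⟨b1, b2⟩ := hB h ι _ T s ξ A' g g' ⟨.refl _⟩ hs hξ hA a1 a2 a3 a4 a5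
  refine .pert hA a1 a2 a3 a4 a5 (by rw [smul_mul_smul_comm, h2, smul_zero]) ?_
  convert ((T.si_ent b1).mul h1).mul (T.si_ent b2) using 1
  simp only [Matrix.mul_smul, Matrix.smul_mul, smul_smul, ← map_mul, pow_succ]

theorem pertL (hB : BON p) {ξ : Matrix ι (Fin (h + 1)) (WittVector p T.K)} {s : T.Kˣ}
    (hs : (s : T.K) ∈ T.C) (hξ : Ent (WI p T.C) (tm p (s : T.K) • ξ))
    {E : Matrix (ι ⊕ Fin (h + 1)) (ι ⊕ Fin (h + 1)) (WittVector p T.K)} (h1 : Ent (WI p T.C) E)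
    (h2 : E * E = 0) (hL : LL T (fromBlocks 1 ξ 0 (Hm p T.K h))) :
    LL T (fromBlocks 1 ξ 0 (Hm p T.K h) *
      (1 - tm p (rt p T.K ((s : T.K) ^ (Fintype.card (ι ⊕ Fin (h + 1)) + 1))) • E)) :=
  hL.mono fun T' f hL => by
    rw [blocks_map, Hm_map] at hL
    have := pert hB (s := Units.map f.f.toMonoidHom s) (f.mem _ hs) (ent_map f hξ)
      (h1.map fun _ => WI.map f.mem) (by rw [← Matrix.map_mul, h2, Matrix.map_zero _ (map_zero _)])
      hL
    rw [Matrix.map_mul, blocks_map, Hm_map, Matrix.map_sub _ (map_sub _), map_one', smul_map,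
      wm_tm, map_rt, map_pow]
    exact this

/-- from the standard matrix to the normal form -/
theorem norm (hM : MOD p) (hB : BON p)
    (ih : ∀ ξ : Matrix ι (Fin (h + 2)) (WittVector p T.K), Ent (Bd p T.C) ξ →
      LL T (fromBlocks 1 ξ 0 (Hm p T.K (h + 1))))
    {ξ : Matrix ι (Fin (h + 2)) (WittVector p T.K)} {s : T.Kˣ} (hs : (s : T.K) ∈ T.C) {M : ℕ}
    (hξ : Ent (WI p T.C) (tm p ((s : T.K) ^ M) • ξ)) (k : ℕ) {u : T.K} (hu : u ∈ T.C) :
    LL T (fromBlocks 1 ξ 0 (A1 p h ((rt p T.K ^ k) (s : T.K) * u))) := by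
  set n := Fintype.card (ι ⊕ Fin (h + 2)) + 1 with hn
  obtain ⟨c, hc, e⟩ := root_dvd hs k (M * n)
  have hv := mul_mem (T.rt_pow_mem k hs) hu
  obtain ⟨a, ξ', a1, a2, a3, a4⟩ := red (A1_dieu h hv)
    (ent_bd (t := s ^ M) (by simpa using pow_mem hs M) (by simpa using hξ)) hξ (k + M * n)
  refine modl hM _ (LL.of_iso (.refl _) (.unip _ a1 a4) ?_)
  set v := (rt p T.K ^ k) (s : T.K) * u
  set E := Matrix.single (Fin.last h).castSucc (Fin.last (h + 1)) (1 : WittVector p T.K)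
  have b1 : Ent (WI p T.C) (1 + tm p v • E) := Ent.one.add ((single_ent _ _).smul (tm_mem hv))
  have b0 : ∀ a : WittVector p T.K, a • E * a • E = 0 := nu_sq h
  have b2 : (1 + tm p v • E) * (1 - tm p v • E) = 1 := by
    rw [Matrix.add_mul, Matrix.one_mul, Matrix.mul_sub, Matrix.mul_one, b0, sub_zero,
      sub_add_cancel]
  have := pertL hB (ξ := ξ' * (1 + tm p v • E))
    (s := Units.map (rt p T.K ^ (k + M * n)).toMonoidHom (s ^ M))
    (T.rt_pow_mem _ (by simpa using pow_mem hs M))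
    (by rw [← Matrix.smul_mul]; exact Ent.mul (by simpa using a3) b1)
    (E := fromBlocks 0 0 0 (tm p (c * u) • E))
    (.blocks .zero .zero .zero ((single_ent _ _).smul (tm_mem (mul_mem hc hu))))
    (by rw [fromBlocks_multiply, b0]; simp) (ih _ (a2.mul (b1.mono WI.le_Bd)))
  convert this using 1
  have b3 : tm p (rt p T.K ((rt p T.K ^ (k + M * n)) ((s : T.K) ^ M) ^ n)) * tm p (c * u) =
      tm p v := by
    rw [← tm_mul, ← map_pow, ← pow_mul, ← mul_assoc, ← e]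
  rw [A1_eq, ← fromBlocks_one, fromBlocks_smul, sub_eq_add_neg (fromBlocks _ _ _ _),
    fromBlocks_neg, fromBlocks_add, fromBlocks_multiply, smul_smul]
  simp only [Units.coe_map, RingHom.toMonoidHom_eq_coe, MonoidHom.coe_coe,
    Units.val_pow_eq_pow_val, ← hn, b3, ← sub_eq_add_neg]
  simp only [smul_zero, sub_zero, Matrix.mul_one, Matrix.mul_zero, add_zero,
    zero_add, Matrix.mul_assoc, b2]
  rfl

/-- splitting off one index -/
def eqv (j : ι) (μ : Type) : {i // i ≠ j} ⊕ (Unit ⊕ μ) ≃ ι ⊕ μ where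
  toFun := Sum.elim (fun i => .inl i) (Sum.map (fun _ => j) id)
  invFun := Sum.elim (fun i => if e : i = j then .inr (.inl ()) else .inl ⟨i, e⟩)
    fun m => .inr (.inr m)
  left_inv := by
    rintro (⟨i, e⟩ | _ | _) <;> simp [*]
  right_inv := by
    rintro (i | _)
    · by_cases e : i = j <;> simp [e]
    · rfl

omit [Fintype ι] in
theorem Nx_eqv (j : ι) (x : ι → WittVector p T.K) :
    (Nx h x).submatrix (eqv j _) (eqv j _) =
      fromBlocks 1 (fromCols 0 (lcol h fun i : {i // i ≠ j} => x i)) 0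
        (Nx h fun _ : Unit => x j) := by
  ext a b : 1
  rcases a with ⟨a, ha⟩ | _ | a <;> rcases b with ⟨b, hb⟩ | _ | b <;>
    simp [Nx, eqv, one_apply, lcol, *, Ne.symm]

theorem int {y : ι → T.K} (hy : ∀ i, y i ∈ T.C) : LL T (Nx h fun i => tm p (y i)) :=
  .of_lat (Hm_dieu.block (lcol_ent fun i => tm_mem (hy i))).lat

omit [Fintype ι] [DecidableEq ι] in
theorem smul_lcol (a : WittVector p T.K) (x : ι → WittVector p T.K) :
    a • lcol h x = lcol h fun i => a * x i := by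
  ext i j : 1
  simp [lcol]

/-- the step -/
theorem step (hM : MOD p) (hB : BON p) (h6 : NF6 p) (j : ι)
    (ih : ∀ (T : Tri p) (ξ : Matrix {i // i ≠ j} (Fin (h + 2)) (WittVector p T.K)),
      Ent (Bd p T.C) ξ → LL T (fromBlocks 1 ξ 0 (Hm p T.K (h + 1))))
    {y : ι → T.K} {s : T.K} (hs : s ∈ T.C) (h1 : s * y j = 1) (h2 : ∀ i, s * y i ∈ T.C) :
    LL T (Nx h fun i => tm p (y i)) := by
  obtain ⟨k, h6⟩ := h6 h
  refine LL.bind (h6 T ⟨s, y j, h1, by rw [mul_comm, h1]⟩ hs) fun T' f H => ?_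
  have h3 : f.f s * f.f (y j) = 1 := by rw [← map_mul, h1, map_one]
  have h4 : ∀ i, f.f s * f.f (y i) ∈ T'.C := fun i => by
    rw [← map_mul]
    exact f.mem _ (h2 i)
  rw [Nx_map]
  simp only [wm_tm]
  rcases H with H | ⟨u, hu, g, g', a1, a2, a3, a4, a5⟩
  · refine int fun i => ?_
    have : f.f (y j) * _ ∈ _ := mul_mem H (h4 i)
    rwa [← mul_assoc, mul_comm _ (f.f s), h3, one_mul] at this
  let s' : T'.Kˣ := ⟨f.f s, f.f (y j), h3, by rw [mul_comm, h3]⟩
  have hs' : (s' : T'.K) ∈ T'.C := f.mem _ hs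
  have h5 : ∀ {μ : Type} (e : μ → ι), Ent (WI p T'.C)
      (tm p (s' : T'.K) • lcol h fun i => tm p (f.f (y (e i)))) := fun e => by
    rw [smul_lcol]
    exact lcol_ent fun i => by rw [← tm_mul]; exact tm_mem (h4 _)
  have e : Fin (h + 2) ≃ Unit ⊕ Fin (h + 1) := Fintype.equivOfCardEq (by simp; omega)
  obtain ⟨-, b⟩ := hB h Unit _ T' s' _ _ g g' ⟨e⟩ hs' (h5 fun _ => j)
    (A1_dieu h (mul_mem (T'.rt_pow_mem k hs') hu)) a1 a2 a3 a4 a5
  obtain ⟨c, hc, e'⟩ := T'.rt_dvd (pow_mem hs' (Fintype.card (Fin (h + 2)))) 1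
  refine .of_iso (eqv j _).symm (.reindex _ (eqv j _)) ?_
  rw [Nx_eqv]
  refine .of_iso (.sumCongr (.refl _) e.symm) (.block a1 a2 a3 a4 a5 _)
    (norm hM hB (ih T') hs' (M := Fintype.card (Fin (h + 2)) + 1) ?_ k hu)
  have b' : Ent (WI p T'.C) (tm p (s' : T'.K) • fromCols (0 : Matrix _ Unit _)
      (lcol h fun i : {i // i ≠ j} => tm p (f.f (y i)))) := by
    rintro i (l | l)
    · simp
    · exact h5 Subtype.val i l
  convert (b'.mul (T'.si_ent b)).smul (tm_mem hc) using 1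
  simp only [Matrix.mul_smul, Matrix.smul_mul, smul_smul, ← tm_mul]
  rw [pow_one (rt p T'.K)] at e'
  congr 2
  linear_combination (s' : T'.K) * e'

theorem main (hM : MOD p) (hB : BON p) (h6 : NF6 p) (n : ℕ) :
    ∀ (h : ℕ) (ι : Type) [Fintype ι] [DecidableEq ι], Fintype.card ι = n → ∀ (T : Tri p)
      (ξ : Matrix ι (Fin (h + 1)) (WittVector p T.K)), Ent (Bd p T.C) ξ →
      LL T (fromBlocks 1 ξ 0 (Hm p T.K h)) := by
  induction n using Nat.strong_induction_on with | _ n ih => ?_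
  intro h ι _ _ hn T ξ hξ
  obtain ⟨x, hx, h1⟩ := nrm hξ
  refine .of_iso (.refl _) h1 (LL.bind (sl h T x hx) fun T' f ⟨y, h2⟩ => ?_)
  rw [Nx_map]
  refine .of_iso (.refl _) h2 ?_
  obtain ⟨t, ht, h3⟩ := Ent.den (C := T'.C) (A := Matrix.of fun (i : ι) (_ : Unit) => tm p (y i))
    fun i _ => T'.tm_mem' _
  have h4 : ∀ i, (t : T'.K) * y i ∈ T'.C := fun i => by
    simpa [coeff_tm_mul] using mem_wsub.1 (h3 i ()) 0
  refine LL.bind (maxd (Option ι) T' (fun o => (t : T'.K) * o.elim 1 y) (by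
    rintro (_ | i)
    exacts [mul_mem ht (one_mem _), h4 i])) fun T'' g ⟨o, H⟩ => ?_
  have H' : ∀ i : Option ι, ∃ c ∈ T''.C, g.f (i.elim 1 y) = g.f (o.elim 1 y) * c := fun i =>
    let ⟨c, hc, e⟩ := H i
    ⟨c, hc, (t.isUnit.map g.f).mul_left_cancel (by rw [← map_mul, e, map_mul, mul_assoc])⟩
  rw [Nx_map]
  simp only [wm_tm]
  rcases o with _ | j
  · refine int fun i => ?_
    obtain ⟨c, hc, e⟩ := H' (some i)
    rwa [show g.f (y i) = c by simpa using e]
  obtain ⟨s, hs, e⟩ := H' none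
  have e' : s * g.f (y j) = 1 := by rw [mul_comm]; simpa using e.symm
  refine step hM hB h6 j (ih _ (hn ▸ Fintype.card_subtype_lt (x := j) (by simp)) _ _ rfl) hs e'
    fun i => ?_
  obtain ⟨c, hc, e⟩ := H' (some i)
  rwa [show g.f (y i) = g.f (y j) * c from e, ← mul_assoc, e', one_mul]

end St

theorem exl_of (hM : MOD p) (hB : BON p) (h6 : NF6 p) : EXL p :=
  fun h ι _ _ T x hx => (St.main hM hB h6 _ h ι rfl T _ (lcol_ent hx)).mono fun _ _ H => by
    rwa [← Nx_map]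

end P261.B7
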